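import Vale.Agent.P272.BD.Mean
import Vale.Agent.P272.BR.Stay

/-! From the integral bound on discs `B(z, d/2)` to the pointwise bound `|f'|² ≤ K/(1-|z|)`. -/

open scoped Manifold ContDiff ComplexOrder Topology ENNReal
open Complex Set Filter Metric MeasureTheory

set_option linter.all false

noncomputable section

namespace Vale.Agent.P272.BD

open Vale.Agent.P272.K Vale.Agent.P272.BR
open Vale.Agent.P272.K.LIN (Cov)

variable {n : ℕ} {X : Type*} [TopologicalSpace X] [ChartedSpace (Cm n) X]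
  [IsManifold 𝓘(ℂ, Cm n) ω X]
  {h : Chart n X → Cm n → Matrix (Fin n) (Fin n) ℂ} {f : ℂ → X}

/-- pointwise bound from an integral bound, when the disc stays in a chart -/
lemma local_bound [T2Space X] {𝒞 : Cov (Cm n) X} {L C : ℝ} (hL : CovConst 𝒞 h L)
    (hh : IsHermitian h) {z₀ : ℂ} {ρ : ℝ} (hρ : 0 < ρ) (hC : 0 < C)
    (hf : ∀ w ∈ ball z₀ ρ, HolAt n f w ∧ spd h f w ≤ C ^ 2) {i : Fin 𝒞.N}
    (hi : f z₀ ∈ (𝒞.e i).source) (hz : 𝒞.e i (f z₀) ∈ ball (𝒞.c i) (𝒞.r i)) {δ : ℝ} (hδ0 : 0 < δ)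
    (hδ : 2 * δ ≤ ρ) (hδ' : 2 * δ ≤ 𝒞.r i / (L * C)) {A : ℝ} (hA : 0 ≤ A)
    (hint : ∫⁻ z in ball z₀ ρ, ENNReal.ofReal (spd h f z) ≤ ENNReal.ofReal A) :
    spd h f z₀ ≤ L ^ 2 * A / (Real.pi * δ ^ 2) := by
  obtain ⟨h1, h2, h3⟩ := lip hL hh hC hf hi hz hδ hδ'
  have hsubδ : ball z₀ δ ⊆ ball z₀ ρ := ball_subset_ball (by linarith)
  have hL0 : 0 < L := by linarith [hL.1]
  have hsub : ball z₀ (2 * δ) ⊆ ball z₀ ρ := ball_subset_ball hδ
  have hcl : closedBall z₀ δ ⊆ ball z₀ (2 * δ) := closedBall_subset_ball (by linarith)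
  have hv : DifferentiableOn ℂ (vel f (𝒞.e i)) (ball z₀ (2 * δ)) := h2.deriv isOpen_ball
  have hmean := sub_mean hδ0 (hv.continuousOn.mono hcl) (fun z hz' =>
    (hv z (hcl (ball_subset_closedBall hz'))).differentiableAt
      (isOpen_ball.mem_nhds (hcl (ball_subset_closedBall hz'))))
  have hr := 𝒞.r_pos i
  have hcomp : ∀ z ∈ ball z₀ (2 * δ), ‖vel f (𝒞.e i) z‖ ^ 2 ≤ L * spd h f z ∧
      spd h f z ≤ L * ‖vel f (𝒞.e i) z‖ ^ 2 := by
    intro z hz'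
    have hat : At (𝒞.e i) (f z) := ⟨𝒞.mem i, (h1 z hz').1⟩
    rw [spd_eq hh (hf z (hsub hz')).1 hat]
    exact hL.2 i _ (ball_subset_closedBall (ball_subset_ball (by linarith) (h1 z hz').2)) _
  have h4 : ∫⁻ z in ball z₀ δ, ENNReal.ofReal (‖vel f (𝒞.e i) z‖ ^ 2) ≤
      ENNReal.ofReal (L * A) := by
    calc ∫⁻ z in ball z₀ δ, ENNReal.ofReal (‖vel f (𝒞.e i) z‖ ^ 2)
        ≤ ∫⁻ z in ball z₀ δ, ENNReal.ofReal L * ENNReal.ofReal (spd h f z) := by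
          refine setLIntegral_mono' measurableSet_ball fun z hz' => ?_
          rw [← ENNReal.ofReal_mul hL0.le]
          exact ENNReal.ofReal_le_ofReal (hcomp z (ball_subset_ball (by linarith) hz')).1
      _ = ENNReal.ofReal L * ∫⁻ z in ball z₀ δ, ENNReal.ofReal (spd h f z) :=
          lintegral_const_mul' _ _ ENNReal.ofReal_ne_top
      _ ≤ ENNReal.ofReal L * ∫⁻ z in ball z₀ ρ, ENNReal.ofReal (spd h f z) := by
          exact mul_le_mul_right (lintegral_mono_set hsubδ) _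
      _ ≤ ENNReal.ofReal L * ENNReal.ofReal A := by gcongr
      _ = _ := (ENNReal.ofReal_mul hL0.le).symm
  have h5 := (ENNReal.ofReal_le_ofReal_iff (by positivity)).1 (hmean.trans h4)
  have h6 := (hcomp z₀ (mem_ball_self (by linarith))).2
  rw [le_div_iff₀ (by positivity)]
  calc spd h f z₀ * (Real.pi * δ ^ 2) ≤ (L * ‖vel f (𝒞.e i) z₀‖ ^ 2) * (Real.pi * δ ^ 2) := by
        gcongr
    _ = L * (Real.pi * δ ^ 2 * ‖vel f (𝒞.e i) z₀‖ ^ 2) := by ring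
    _ ≤ L * (L * A) := by gcongr
    _ = _ := by ring

/-- **the pointwise bound** -/
theorem speed_bound [T2Space X] [CompactSpace X] (hh : IsHermitian h) (hf : HolOn n f (ball 0 1))
    {M K : ℝ} (hM : 0 < M) (hK : 0 ≤ K)
    (hB : ∀ z ∈ ball (0 : ℂ) 1, spd h f z ≤ M / (1 - ‖z‖) ^ 2)
    (hI : ∀ z₀ ∈ ball (0 : ℂ) 1, ∫⁻ z in ball z₀ ((1 - ‖z₀‖) / 2), ENNReal.ofReal (spd h f z) ≤
      ENNReal.ofReal (K * (1 - ‖z₀‖))) :
    ∃ K' : ℝ, 0 < K' ∧ ∀ z ∈ ball (0 : ℂ) 1, spd h f z ≤ K' / (1 - ‖z‖) := by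
  obtain ⟨𝒞⟩ := Cov.nonempty (Cm n) X
  obtain ⟨L, hL⟩ := exists_cov_const 𝒞 hh
  have hL' : CovConst 𝒞 h L := hL
  have hL0 : 0 < L := by linarith [hL.1]
  have hπ := Real.pi_pos
  -- a uniform radius
  obtain ⟨r₀, hr₀, hr₀'⟩ : ∃ r₀ : ℝ, 0 < r₀ ∧ ∀ i, r₀ ≤ 𝒞.r i := by
    rcases isEmpty_or_nonempty (Fin 𝒞.N) with hN | hN
    · exact ⟨1, one_pos, fun i => (hN.false i).elim⟩
    · obtain ⟨i, hi⟩ := Finite.exists_min fun i => 𝒞.r i
      exact ⟨𝒞.r i, 𝒞.r_pos i, hi⟩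
  set κ : ℝ := min (1 / 4) (r₀ / (4 * L * Real.sqrt M)) with hκ
  have hsM : 0 < Real.sqrt M := Real.sqrt_pos.2 hM
  have hκ0 : 0 < κ := lt_min (by norm_num) (by positivity)
  refine ⟨L ^ 2 * K / (Real.pi * κ ^ 2) + 1, by positivity, fun z₀ hz₀ => ?_⟩
  obtain ⟨i, hi, hx⟩ := 𝒞.cover (f z₀)
  have hd : 0 < 1 - ‖z₀‖ := by
    have : ‖z₀‖ < 1 := by simpa using hz₀
    linarith
  set d := 1 - ‖z₀‖ with hddef
  have hball : ∀ w ∈ ball z₀ (d / 2), d / 2 ≤ 1 - ‖w‖ := by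
    intro w hw
    rw [mem_ball, dist_eq_norm] at hw
    have h1 : ‖w‖ ≤ ‖z₀‖ + ‖w - z₀‖ := by
      have := norm_add_le z₀ (w - z₀)
      rwa [add_sub_cancel] at this
    linarith
  have hf' : ∀ w ∈ ball z₀ (d / 2), HolAt n f w ∧ spd h f w ≤ (2 * Real.sqrt M / d) ^ 2 := by
    intro w hw
    have h1 := hball w hw
    have hw1 : w ∈ ball (0 : ℂ) 1 := by
      rw [mem_ball_zero_iff]; linarith
    have h1' : 0 < 1 - ‖w‖ := by linarith
    refine ⟨hf w hw1, (hB w hw1).trans ?_⟩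
    rw [div_pow, mul_pow, Real.sq_sqrt hM.le, div_le_div_iff₀ (by positivity) (by positivity)]
    have h2 : (d / 2) ^ 2 ≤ (1 - ‖w‖) ^ 2 := by gcongr
    nlinarith
  have hδ2 : 2 * (κ * d) ≤ 𝒞.r i / (L * (2 * Real.sqrt M / d)) := by
    have h1 : κ ≤ r₀ / (4 * L * Real.sqrt M) := min_le_right _ _
    have h2 : κ * (4 * L * Real.sqrt M) ≤ r₀ := by rwa [le_div_iff₀ (by positivity)] at h1
    rw [le_div_iff₀ (by positivity)]
    calc 2 * (κ * d) * (L * (2 * Real.sqrt M / d)) = κ * (4 * L * Real.sqrt M) := by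
          field_simp
          ring
      _ ≤ 𝒞.r i := h2.trans (hr₀' i)
  have hδ1 : 2 * (κ * d) ≤ d / 2 := by
    have h1 : κ ≤ 1 / 4 := min_le_left _ _
    nlinarith
  have h1 := local_bound hL' hh (ρ := d / 2) (by positivity) (C := 2 * Real.sqrt M / d)
    (by positivity) hf' hi hx (δ := κ * d) (by positivity) hδ1 hδ2 (A := K * d) (by positivity)
    (hI z₀ hz₀)
  refine h1.trans ?_
  have h2 : L ^ 2 * (K * d) / (Real.pi * (κ * d) ^ 2) = (L ^ 2 * K / (Real.pi * κ ^ 2)) / d := by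
    field_simp
  rw [h2]
  gcongr
  linarith

end Vale.Agent.P272.BD
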