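import Vale.Agent.P272.BR.Stay
import Mathlib.Topology.ExtendFrom
import Mathlib.Analysis.SpecialFunctions.Sqrt

/-! A disc with `|f'|² ≤ K/(1-|z|)` extends continuously to the closed disc. -/

open scoped Manifold ContDiff ComplexOrder Topology ENNReal
open Complex Set Filter Metric

set_option linter.all false

noncomputable section

namespace Vale.Agent.P272.BD

open Vale.Agent.P272.K Vale.Agent.P272.BR
open Vale.Agent.P272.K.LIN (Cov)

variable {n : ℕ} {X : Type*} [TopologicalSpace X] [ChartedSpace (Cm n) X]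
  [IsManifold 𝓘(ℂ, Cm n) ω X]
  {h : Chart n X → Cm n → Matrix (Fin n) (Fin n) ℂ} {f : ℂ → X}

/-- the path lemma -/
lemma path_stay [T2Space X] {𝒞 : Cov (Cm n) X} {L : ℝ} (hL : CovConst 𝒞 h L)
    (hh : IsHermitian h) (hf : HolOn n f (ball 0 1)) {K : ℝ} (hK : 0 < K)
    (hB : ∀ z ∈ ball (0 : ℂ) 1, spd h f z ≤ K / (1 - ‖z‖)) {i : Fin 𝒞.N} {y : Cm n} {η : ℝ}
    (hη : 0 < η) (hy : closedBall y (2 * η) ⊆ closedBall (𝒞.c i) (3 * 𝒞.r i))
    {p z : ℂ} (hp : p ∈ ball (0 : ℂ) 1) (hz : z ∈ ball (0 : ℂ) 1)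
    (hpe : f p ∈ (𝒞.e i).source) (hpy : 𝒞.e i (f p) ∈ ball y η)
    (hpz : ‖z - p‖ ≤ 2 * (1 - ‖p‖)) (hsmall : 4 * √(L * K * (1 - ‖p‖)) < η) :
    f z ∈ (𝒞.e i).source ∧ 𝒞.e i (f z) ∈ ball y (2 * η) := by
  have hL0 : 0 < L := by linarith [hL.1]
  set e := 𝒞.e i with hedef
  have hsub : closedBall y (2 * η) ⊆ e.target := hy.trans (𝒞.sub i)
  have ht : 0 < 1 - ‖p‖ := by
    have : ‖p‖ < 1 := by simpa using hp
    linarith
  set t := 1 - ‖p‖ with htdef
  have hz1 : ‖z‖ < 1 := by simpa using hz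
  -- the segment
  set γ : ℝ → ℂ := fun τ => p + (τ : ℂ) * (z - p) with hγ
  have hγc : Continuous γ := by fun_prop
  have hγn : ∀ τ ∈ Icc (0 : ℝ) 1, (1 - τ) * t + τ * (1 - ‖z‖) ≤ 1 - ‖γ τ‖ := by
    intro τ hτ
    have h1 : γ τ = ((1 - τ : ℝ) : ℂ) * p + (τ : ℂ) * z := by
      simp only [hγ]; push_cast; ring
    have h2 : ‖γ τ‖ ≤ (1 - τ) * ‖p‖ + τ * ‖z‖ := by
      rw [h1]
      refine (norm_add_le _ _).trans ?_
      rw [norm_mul, norm_mul, Complex.norm_real, Complex.norm_real,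
        Real.norm_of_nonneg (by linarith [hτ.2]), Real.norm_of_nonneg hτ.1]
    have h3 : (1 - τ) * t = (1 - τ) - (1 - τ) * ‖p‖ := by rw [htdef]; ring
    rw [h3]
    linarith
  have hγm : ∀ τ ∈ Icc (0 : ℝ) 1, γ τ ∈ ball (0 : ℂ) 1 := by
    intro τ hτ
    have h1 := hγn τ hτ
    rw [mem_ball_zero_iff]
    have h2 : 0 < (1 - τ) * t + τ * (1 - ‖z‖) := by
      rcases lt_or_eq_of_le hτ.2 with h3 | h3
      · have h4 : 0 < (1 - τ) * t := mul_pos (by linarith) ht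
        have h5 : 0 ≤ τ * (1 - ‖z‖) := mul_nonneg hτ.1 (by linarith)
        linarith
      · rw [h3]; simp; linarith
    linarith
  have hfc : ContinuousOn (fun τ => f (γ τ)) (Icc (0 : ℝ) 1) := by
    intro τ hτ
    exact (ContinuousAt.comp (g := f) (hf _ (hγm τ hτ)).1
      hγc.continuousAt).continuousWithinAt
  set V : Set X := e.source ∩ e ⁻¹' ball y (2 * η) with hV
  have hVo : IsOpen V := e.isOpen_inter_preimage isOpen_ball
  by_contra hbad
  have h1bad : f (γ 1) ∉ V := by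
    have : γ 1 = z := by simp [hγ]
    rw [this]
    exact hbad
  -- the first bad time
  have hBc : IsCompact (Icc (0 : ℝ) 1 ∩ (fun τ => f (γ τ)) ⁻¹' Vᶜ) :=
    isCompact_Icc.of_isClosed_subset
      (hfc.preimage_isClosed_of_isClosed isClosed_Icc hVo.isClosed_compl) inter_subset_left
  obtain ⟨t₁, ht₁, hmin⟩ := hBc.exists_isLeast ⟨1, ⟨zero_le_one, le_rfl⟩, h1bad⟩
  have hgood : ∀ τ ∈ Ico (0 : ℝ) t₁, f (γ τ) ∈ V := by
    intro τ hτ
    by_contra hb
    exact absurd (hmin ⟨⟨hτ.1, hτ.2.le.trans ht₁.1.2⟩, hb⟩) (not_le.2 hτ.2)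
  have h0 : γ 0 = p := by simp [hγ]
  have ht₁0 : 0 < t₁ := by
    refine lt_of_le_of_ne ht₁.1.1 fun h0' => ?_
    apply ht₁.2
    show f (γ t₁) ∈ V
    rw [← h0', h0]
    exact ⟨hpe, ball_subset_ball (by linarith) hpy⟩
  -- at the first bad time the curve is still in the chart
  set KS : Set X := e.symm '' closedBall y (2 * η) with hKS
  have hKc : IsClosed KS := ((isCompact_closedBall y (2 * η)).image_of_continuousOn
    (e.continuousOn_symm.mono hsub)).isClosed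
  have hKmem : ∀ {x : X}, x ∈ KS → x ∈ e.source ∧ e x ∈ closedBall y (2 * η) := by
    rintro x ⟨u, hu, rfl⟩
    refine ⟨e.map_target (hsub hu), ?_⟩
    rw [e.right_inv (hsub hu)]; exact hu
  have hin : ∀ τ ∈ Icc (0 : ℝ) t₁, f (γ τ) ∈ KS := by
    have hcl : IsClosed (Icc (0 : ℝ) t₁ ∩ (fun τ => f (γ τ)) ⁻¹' KS) :=
      (hfc.mono (Icc_subset_Icc le_rfl ht₁.1.2)).preimage_isClosed_of_isClosed isClosed_Icc hKc
    have hsub' : Ico (0 : ℝ) t₁ ⊆ Icc (0 : ℝ) t₁ ∩ (fun τ => f (γ τ)) ⁻¹' KS := by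
      intro τ hτ
      refine ⟨Ico_subset_Icc_self hτ, ?_⟩
      have h3 := hgood τ hτ
      exact ⟨e (f (γ τ)), ball_subset_closedBall h3.2, e.left_inv h3.1⟩
    have h4 := hcl.closure_subset_iff.2 hsub'
    rw [closure_Ico ht₁0.ne] at h4
    exact fun τ hτ => (h4 hτ).2
  -- mean value inequality with a singular weight
  set c : ℝ := √(L * K * t) with hc
  have hder : ∀ τ ∈ Icc (0 : ℝ) t₁, HasDerivAt (fun τ => e (f (γ τ)) - e (f p))
      ((z - p) • vel f e (γ τ)) τ := by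
    intro τ hτ
    have hat : At e (f (γ τ)) := ⟨𝒞.mem i, (hKmem (hin τ hτ)).1⟩
    have h5 : HasDerivAt (fun ζ => e (f ζ)) (vel f e (γ τ)) (γ τ) :=
      (hf _ (hγm τ ⟨hτ.1, hτ.2.trans ht₁.1.2⟩)).hasDerivAt hat
    have h6 : HasDerivAt γ (z - p) τ := by
      have h7 : HasDerivAt (fun τ : ℝ => (τ : ℂ)) 1 τ := Complex.ofRealCLM.hasDerivAt
      have h8 := (h7.mul_const (z - p)).const_add p
      simpa [hγ] using h8
    exact (HasDerivAt.scomp (g₁ := fun ζ => e (f ζ)) τ h5 h6).sub_const _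
  have hB0 : ∀ τ ∈ Ico (0 : ℝ) t₁, HasDerivAt (fun τ : ℝ => 4 * c * (1 - √(1 - τ)))
      (2 * c / √(1 - τ)) τ := by
    intro τ hτ
    have h1 : 1 - τ ≠ 0 := by have := ht₁.1.2; linarith [hτ.2]
    have h2 : HasDerivAt (fun τ : ℝ => 1 - τ) (-1) τ := by
      simpa using (HasDerivAt.const_sub (1 : ℝ) (hasDerivAt_id τ))
    have h3 := ((HasDerivAt.const_sub (1 : ℝ) (h2.sqrt h1)).const_mul (4 * c))
    refine h3.congr_deriv ?_
    ring
  have hbd : ∀ τ ∈ Ico (0 : ℝ) t₁, ‖(z - p) • vel f e (γ τ)‖ ≤ 2 * c / √(1 - τ) := by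
    intro τ hτ
    have hτ' := Ico_subset_Icc_self hτ
    have hτ1 : τ < 1 := hτ.2.trans_le ht₁.1.2
    have hmem : γ τ ∈ ball (0 : ℂ) 1 := hγm τ ⟨hτ.1, hτ1.le⟩
    have hat : At e (f (γ τ)) := ⟨𝒞.mem i, (hKmem (hin τ hτ')).1⟩
    have h9 := (hL.2 i _ (hy (hKmem (hin τ hτ')).2) (vel f e (γ τ))).1
    rw [← spd_eq hh (hf _ hmem) hat] at h9
    have h10 : (1 - τ) * t ≤ 1 - ‖γ τ‖ := by
      have h11 := hγn τ ⟨hτ.1, hτ1.le⟩
      have h12 : 0 ≤ τ * (1 - ‖z‖) := mul_nonneg hτ.1 (by linarith)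
      linarith
    have h13 : 0 < (1 - τ) * t := mul_pos (by linarith) ht
    have h14 : ‖vel f e (γ τ)‖ ^ 2 ≤ L * K / ((1 - τ) * t) := by
      calc ‖vel f e (γ τ)‖ ^ 2 ≤ L * spd h f (γ τ) := h9
        _ ≤ L * (K / (1 - ‖γ τ‖)) := by
            have := hB _ hmem
            gcongr
        _ ≤ L * (K / ((1 - τ) * t)) := by gcongr
        _ = _ := by ring
    rw [norm_smul]
    have h15 : ‖z - p‖ * ‖vel f e (γ τ)‖ ≤ 2 * t * √(L * K / ((1 - τ) * t)) := by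
      have : ‖vel f e (γ τ)‖ ≤ √(L * K / ((1 - τ) * t)) := Real.le_sqrt_of_sq_le h14
      gcongr
    refine h15.trans (le_of_eq ?_)
    have h16 : L * K / ((1 - τ) * t) = (L * K * t) / ((1 - τ) * t ^ 2) := by
      field_simp
    rw [h16, Real.sqrt_div (by positivity), Real.sqrt_mul (x := 1 - τ) (by linarith) (t ^ 2),
      Real.sqrt_sq ht.le, ← hc]
    field_simp
  have hmv := image_norm_le_of_norm_deriv_right_le_deriv_boundary'
    (f := fun τ => e (f (γ τ)) - e (f p)) (a := 0) (b := t₁)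
    (fun τ hτ => (hder τ hτ).continuousAt.continuousWithinAt)
    (fun τ hτ => (hder τ (Ico_subset_Icc_self hτ)).hasDerivWithinAt)
    (B := fun τ : ℝ => 4 * c * (1 - √(1 - τ))) (B' := fun τ => 2 * c / √(1 - τ))
    (by rw [h0]; simp) (by fun_prop) (fun τ hτ => (hB0 τ hτ).hasDerivWithinAt) hbd
    (x := t₁) ⟨ht₁0.le, le_rfl⟩
  apply ht₁.2
  refine ⟨(hKmem (hin t₁ ⟨ht₁0.le, le_rfl⟩)).1, ?_⟩
  show e (f (γ t₁)) ∈ ball y (2 * η)
  have h20 : 4 * c * (1 - √(1 - t₁)) ≤ 4 * c := by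
    have : 0 ≤ √(1 - t₁) := Real.sqrt_nonneg _
    have hc0 : 0 ≤ c := Real.sqrt_nonneg _
    nlinarith
  rw [mem_ball, dist_eq_norm] at hpy ⊢
  calc ‖e (f (γ t₁)) - y‖ ≤ ‖e (f (γ t₁)) - e (f p)‖ + ‖e (f p) - y‖ := by
        have := norm_add_le (e (f (γ t₁)) - e (f p)) (e (f p) - y)
        rwa [sub_add_sub_cancel] at this
    _ < η + η := by
        have h21 : ‖e (f (γ t₁)) - e (f p)‖ ≤ 4 * c * (1 - √(1 - t₁)) := hmv
        linarith
    _ = 2 * η := by ring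

/-- limit at a boundary point -/
lemma exists_limit_boundary [T2Space X] [CompactSpace X] (hh : IsHermitian h)
    (hf : HolOn n f (ball 0 1)) {K : ℝ} (hK : 0 < K)
    (hB : ∀ z ∈ ball (0 : ℂ) 1, spd h f z ≤ K / (1 - ‖z‖)) {ζ : ℂ} (hζ : ‖ζ‖ = 1) :
    ∃ y, Tendsto f (𝓝[ball 0 1] ζ) (𝓝 y) := by
  obtain ⟨𝒞⟩ := Cov.nonempty (Cm n) X
  obtain ⟨L, hL⟩ := exists_cov_const 𝒞 hh
  have hL' : CovConst 𝒞 h L := hL
  have hL0 : 0 < L := by linarith [hL.1]
  -- radial points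
  set t : ℕ → ℝ := fun k => 1 / ((k : ℝ) + 1 + 1) with htdef
  have ht0 : ∀ k, 0 < t k := fun k => by positivity
  have ht1 : ∀ k, t k ≤ 1 := fun k => by
    rw [htdef]; simp only; rw [div_le_one (by positivity)]
    have : (0 : ℝ) ≤ k := Nat.cast_nonneg k
    linarith
  have htt : Tendsto t atTop (𝓝 0) := by
    have := (tendsto_one_div_add_atTop_nhds_zero_nat (𝕜 := ℝ)).comp (tendsto_add_atTop_nat 1)
    refine this.congr fun k => ?_
    simp [htdef]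
  set p : ℕ → ℂ := fun k => ((1 - t k : ℝ) : ℂ) * ζ with hpdef
  have hpn : ∀ k, ‖p k‖ = 1 - t k := fun k => by
    rw [hpdef]; simp only
    rw [norm_mul, hζ, mul_one, Complex.norm_real, Real.norm_of_nonneg (by linarith [ht1 k])]
  have hpb : ∀ k, p k ∈ ball (0 : ℂ) 1 := fun k => by
    rw [mem_ball_zero_iff, hpn]; linarith [ht0 k]
  obtain ⟨y, hy⟩ : ∃ y, MapClusterPt y atTop (fun k => f (p k)) := by
    obtain ⟨y, -, hy⟩ := (isCompact_univ (X := X)).exists_mapClusterPt (f := atTop)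
      (u := fun k => f (p k)) (by simp)
    exact ⟨y, hy⟩
  refine ⟨y, ?_⟩
  obtain ⟨i, hi, hx⟩ := 𝒞.cover y
  set e := 𝒞.e i with hedef
  have hr := 𝒞.r_pos i
  have key : ∀ η, 0 < η → η ≤ 𝒞.r i → ∀ᶠ z in 𝓝[ball 0 1] ζ, f z ∈ e.source ∧
      e (f z) ∈ ball (e y) (2 * η) := by
    intro η hη hηr
    have hyb : closedBall (e y) (2 * η) ⊆ closedBall (𝒞.c i) (3 * 𝒞.r i) := by
      refine closedBall_subset_closedBall' ?_
      have := (mem_ball.1 hx).le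
      linarith
    have hN : e.source ∩ e ⁻¹' ball (e y) η ∈ 𝓝 y :=
      (e.isOpen_inter_preimage isOpen_ball).mem_nhds ⟨hi, mem_ball_self hη⟩
    have h1 : ∃ᶠ k in atTop, f (p k) ∈ e.source ∩ e ⁻¹' ball (e y) η := hy.frequently hN
    have h2 : ∀ᶠ k in atTop, 4 * √(L * K * t k) < η := by
      have h3 : Tendsto (fun k => 4 * √(L * K * t k)) atTop (𝓝 (4 * √(L * K * 0))) :=
        tendsto_const_nhds.mul ((tendsto_const_nhds.mul htt).sqrt)
      simp only [mul_zero, Real.sqrt_zero] at h3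
      exact h3.eventually_lt_const hη
    obtain ⟨k, hk1, hk2⟩ := (h1.and_eventually h2).exists
    have hU : ball ζ (t k) ∈ 𝓝 ζ := ball_mem_nhds _ (ht0 k)
    filter_upwards [mem_nhdsWithin_of_mem_nhds hU, self_mem_nhdsWithin] with z hz1 hz2
    refine path_stay hL' hh hf hK hB hη hyb (hpb k) hz2 hk1.1 hk1.2 ?_ ?_
    · rw [hpn]
      rw [mem_ball, dist_eq_norm] at hz1
      have h4 : ‖ζ - p k‖ = t k := by
        have : ζ - p k = ((t k : ℝ) : ℂ) * ζ := by simp only [hpdef]; push_cast; ring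
        rw [this, norm_mul, hζ, mul_one, Complex.norm_real, Real.norm_of_nonneg (ht0 k).le]
      calc ‖z - p k‖ ≤ ‖z - ζ‖ + ‖ζ - p k‖ := by
            have := norm_add_le (z - ζ) (ζ - p k)
            rwa [sub_add_sub_cancel] at this
        _ ≤ _ := by rw [h4]; linarith
    · rw [hpn]
      simpa using hk2
  have h5 : Tendsto (fun z => e (f z)) (𝓝[ball 0 1] ζ) (𝓝 (e y)) := by
    rw [Metric.tendsto_nhds]
    intro δ hδ
    filter_upwards [key (min (δ / 2) (𝒞.r i)) (lt_min (by linarith) hr) (min_le_right _ _)]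
      with z hz
    have h6 := mem_ball.1 hz.2
    have h7 : min (δ / 2) (𝒞.r i) ≤ δ / 2 := min_le_left _ _
    linarith
  have h6 : Tendsto (fun z => e.symm (e (f z))) (𝓝[ball 0 1] ζ) (𝓝 (e.symm (e y))) :=
    (e.continuousAt_symm (e.map_source hi)).tendsto.comp h5
  rw [e.left_inv hi] at h6
  refine h6.congr' ?_
  filter_upwards [key (𝒞.r i) hr le_rfl] with z hz using e.left_inv hz.1

/-- **extension to the closed disc** -/
theorem extend [T2Space X] [CompactSpace X] (hh : IsHermitian h)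
    (hf : HolOn n f (ball 0 1)) {K : ℝ} (hK : 0 < K)
    (hB : ∀ z ∈ ball (0 : ℂ) 1, spd h f z ≤ K / (1 - ‖z‖)) :
    ∃ g : ℂ → X, ContinuousOn g (closedBall 0 1) ∧ ∀ z ∈ ball (0 : ℂ) 1, g z = f z := by
  have hcl : closure (ball (0 : ℂ) 1) = closedBall 0 1 := closure_ball _ one_ne_zero
  refine ⟨extendFrom (ball 0 1) f, ?_, ?_⟩
  · refine continuousOn_extendFrom hcl.ge fun ζ hζ => ?_
    by_cases h1 : ζ ∈ ball (0 : ℂ) 1
    · exact ⟨f ζ, (hf ζ h1).1.continuousWithinAt⟩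
    · refine exists_limit_boundary hh hf hK hB ?_
      rw [mem_ball_zero_iff] at h1
      rw [mem_closedBall_zero_iff] at hζ
      linarith
  · intro z hz
    exact extendFrom_eq (subset_closure hz) (hf z hz).1.continuousWithinAt

end Vale.Agent.P272.BD
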