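import Vale.Agent.P272.BD.Var
import Vale.Agent.P272.BR.Spd
import Mathlib.Analysis.Calculus.ContDiff.RCLike

/-! The variation of the extra term `T^{(r)}_w`, `r < 1`. -/

open scoped Manifold ContDiff ComplexOrder Topology ENNReal
open Complex Set Filter Metric MeasureTheory

set_option linter.all false

noncomputable section

namespace Vale.Agent.P272.BD

open Vale.Agent.P272.K Vale.Agent.P272.BR

section smooth
variable {n : ℕ} {X : Type*} [TopologicalSpace X] [ChartedSpace (Cm n) X]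
  [IsManifold 𝓘(ℂ, Cm n) ω X]
  {h : Chart n X → Cm n → Matrix (Fin n) (Fin n) ℂ} {f : ℂ → X} {U : Set ℂ}

/-- the speed of a holomorphic disc is smooth -/
lemma contDiffAt_spd (hU : IsOpen U) (hh : IsHermitian h) (hf : HolOn n f U) {z : ℂ} (hz : z ∈ U) :
    ContDiffAt ℝ 1 (spd h f) z := by
  have he := at_chartAt (n := n) (f z)
  set e := chartAt (Cm n) (f z) with hedef
  obtain ⟨ρ, hρ, h1, h2, h3⟩ := hf.exists_ball hU hz he
  have hmem : ball z ρ ∈ 𝓝 z := ball_mem_nhds z hρ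
  have c1 : ContDiffAt ℝ 1 (fun ζ => e (f ζ)) z :=
    (((h3.contDiffOn (n := 1) isOpen_ball).contDiffAt hmem)).restrict_scalars ℝ
  have c2 : ContDiffAt ℝ 1 (vel f e) z :=
    ((((h3.deriv isOpen_ball).contDiffOn (n := 1) isOpen_ball).contDiffAt hmem)).restrict_scalars ℝ
  have c3 : ∀ i j, ContDiffAt ℝ 1 (fun ζ => h e (e (f ζ)) i j) z := fun i j =>
    ContDiffAt.comp (g := fun y => h e y i j) (f := fun ζ => e (f ζ)) z
      ((hh.smooth e (f z) he i j).of_le (by exact_mod_cast le_top)) c1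
  have c4 : ContDiffAt ℝ 1 (fun ζ => (quad (h e (e (f ζ))) (vel f e ζ)).re) z := by
    unfold quad
    refine (Complex.reCLM.contDiff.contDiffAt).comp z ?_
    refine ContDiffAt.sum fun i _ => ContDiffAt.sum fun j _ => ?_
    refine (c3 i j).mul ?_
    refine (contDiffAt_pi.1 c2 i).mul ?_
    exact (Complex.conjCLE.contDiff.contDiffAt).comp z (contDiffAt_pi.1 c2 j)
  refine c4.congr_of_eventuallyEq ?_
  filter_upwards [hf.eventually hU hz he] with ζ hζ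
  exact spd_eq hh hζ.2.2 hζ.2.1

end smooth

section
variable {s : ℂ → ℝ} {r : ℝ}

/-- the extra term changes by `O(ε)`, uniformly in the competitor -/
theorem extra_var (hr : 0 < r) (hr1 : r < 1) (hs : ∀ z ∈ ball (0 : ℂ) 1, ContDiffAt ℝ 1 s z)
    (hs0 : ∀ z ∈ ball (0 : ℂ) 1, 0 ≤ s z) :
    ∃ C : ℝ, 0 ≤ C ∧ ∀ (ζ : ℂ) (ρ : ℝ), ‖ζ‖ = 1 → 0 < ρ → ρ ≤ 1 → ∀ᶠ ε in 𝓝[>] (0 : ℝ),
      ∫⁻ z in ball (0 : ℂ) r, ENNReal.ofReal (GJ.Gr r z * s z) ≤
      (∫⁻ z in ball (0 : ℂ) r, ENNReal.ofReal (GJ.Gr r z * (‖ph' ζ ρ ε z‖ ^ 2 * s (ph ζ ρ ε z)))) +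
      ENNReal.ofReal (C * ε) := by
  have hK : IsCompact (closedBall (0 : ℂ) r) := isCompact_closedBall _ _
  have hsub : closedBall (0 : ℂ) r ⊆ ball 0 1 := closedBall_subset_ball hr1
  have hcd : ContDiffOn ℝ 1 s (closedBall 0 r) := fun z hz => (hs z (hsub hz)).contDiffWithinAt
  obtain ⟨Λ, hΛ⟩ := hcd.exists_lipschitzOnWith one_ne_zero (convex_closedBall _ _) hK
  obtain ⟨S, hS⟩ := hK.exists_bound_of_continuousOn hcd.continuousOn
  have hS0 : 0 ≤ S := (norm_nonneg _).trans (hS 0 (by simp [hr.le]))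
  have h1r : 0 < 1 - r := by linarith
  set a : ℝ := (1 - r)⁻¹ with ha
  have ha0 : 0 < a := inv_pos.2 h1r
  refine ⟨Λ * a + 6 * a ^ 2 * S, by positivity, fun ζ ρ hζ hρ hρ1 => ?_⟩
  have e1 : ∀ᶠ ε in 𝓝[>] (0 : ℝ), ε ≤ ρ :=
    (eventually_le_nhds hρ).filter_mono nhdsWithin_le_nhds
  have e2 : ∀ᶠ ε in 𝓝[>] (0 : ℝ), ε * (2 * a ^ 2) < 1 := by
    have : Tendsto (fun ε : ℝ => ε * (2 * a ^ 2)) (𝓝 0) (𝓝 (0 * (2 * a ^ 2))) :=
      (continuous_id.mul continuous_const).tendsto 0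
    rw [zero_mul] at this
    exact (this.eventually_lt_const one_pos).filter_mono nhdsWithin_le_nhds
  filter_upwards [e1, e2, self_mem_nhdsWithin] with ε h1 h2 h3
  have h3' : 0 < ε := h3
  have key : ∀ z ∈ ball (0 : ℂ) r, s z ≤ ‖ph' ζ ρ ε z‖ ^ 2 * s (ph ζ ρ ε z) +
      (Λ * a + 6 * a ^ 2 * S) * ε := by
    intro z hz
    have hz1 : z ∈ ball (0 : ℂ) 1 := ball_subset_ball hr1.le hz
    have hzr : z ∈ closedBall (0 : ℂ) r := ball_subset_closedBall hz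
    have hzn : ‖z‖ < r := by simpa using hz
    have hpz : ph ζ ρ ε z ∈ closedBall (0 : ℂ) r := by
      rw [mem_closedBall_zero_iff]
      exact (ph_norm_le hζ hρ h3'.le h1 hz1).trans hzn.le
    -- bound of h
    have hh : ‖hh ζ ρ z‖ ≤ a := by
      unfold BD.hh
      rw [norm_inv, ha]
      refine inv_anti₀ h1r ?_
      have := (den_re (ρ := ρ) hζ z).trans (Complex.re_le_norm _)
      linarith
    have d1 : ‖z - ph ζ ρ ε z‖ ≤ ε * a := by
      have : z - ph ζ ρ ε z = ε * (z * BD.hh ζ ρ z) := by unfold ph; ring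
      rw [this, norm_mul, Complex.norm_real, Real.norm_of_nonneg h3'.le, norm_mul]
      have : ‖z‖ * ‖BD.hh ζ ρ z‖ ≤ 1 * a := by
        have := hzn.le.trans hr1.le
        gcongr
      rw [one_mul] at this
      gcongr
    have d2 : ‖1 - ph' ζ ρ ε z‖ ≤ ε * (2 * a ^ 2) := by
      have : 1 - ph' ζ ρ ε z = ε * (1 + ρ) * (BD.hh ζ ρ z) ^ 2 := by unfold ph'; ring
      rw [this, norm_mul, norm_mul, Complex.norm_real, Real.norm_of_nonneg h3'.le, norm_pow]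
      have e3 : ‖(1 + ρ : ℂ)‖ ≤ 2 := by
        rw [← Complex.ofReal_one, ← Complex.ofReal_add, Complex.norm_real,
          Real.norm_of_nonneg (by positivity)]
        linarith
      calc ε * ‖(1 + ρ : ℂ)‖ * ‖BD.hh ζ ρ z‖ ^ 2 ≤ ε * 2 * a ^ 2 := by gcongr
        _ = _ := by ring
    have d3 : 1 - 3 * (ε * (2 * a ^ 2)) ≤ ‖ph' ζ ρ ε z‖ ^ 2 := by
      have : 1 ≤ ‖1 - ph' ζ ρ ε z‖ + ‖ph' ζ ρ ε z‖ := by
        have := norm_add_le (1 - ph' ζ ρ ε z) (ph' ζ ρ ε z)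
        rwa [sub_add_cancel, norm_one] at this
      have h4 : 1 - ε * (2 * a ^ 2) ≤ ‖ph' ζ ρ ε z‖ := by linarith
      have h5 : 0 < ε * (2 * a ^ 2) := by positivity
      nlinarith
    have d4 : s z ≤ s (ph ζ ρ ε z) + Λ * (ε * a) := by
      have := hΛ.dist_le_mul z hzr (ph ζ ρ ε z) hpz
      rw [dist_eq_norm, Real.norm_eq_abs] at this
      have h5 := (le_abs_self _).trans this
      have h6 : (Λ : ℝ) * dist z (ph ζ ρ ε z) ≤ Λ * (ε * a) := by
        rw [dist_eq_norm]; gcongr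
      linarith
    have d5 : s (ph ζ ρ ε z) ≤ S := (le_abs_self _).trans (hS _ hpz)
    have d6 : 0 ≤ s (ph ζ ρ ε z) := hs0 _ (hsub hpz)
    have d7 : s (ph ζ ρ ε z) ≤ ‖ph' ζ ρ ε z‖ ^ 2 * s (ph ζ ρ ε z) +
        3 * (ε * (2 * a ^ 2)) * S := by
      have h6 : (1 - 3 * (ε * (2 * a ^ 2))) * s (ph ζ ρ ε z) ≤
        ‖ph' ζ ρ ε z‖ ^ 2 * s (ph ζ ρ ε z) := mul_le_mul_of_nonneg_right d3 d6
      have h7 : 3 * (ε * (2 * a ^ 2)) * s (ph ζ ρ ε z) ≤ 3 * (ε * (2 * a ^ 2)) * S := by gcongr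
      linarith
    linarith
  have hGmeas : Measurable (GJ.Gr r) := GJ.measurable_Gr r
  calc ∫⁻ z in ball (0 : ℂ) r, ENNReal.ofReal (GJ.Gr r z * s z)
      ≤ ∫⁻ z in ball (0 : ℂ) r, (ENNReal.ofReal (GJ.Gr r z * (‖ph' ζ ρ ε z‖ ^ 2 * s (ph ζ ρ ε z))) +
        ENNReal.ofReal ((Λ * a + 6 * a ^ 2 * S) * ε) * ENNReal.ofReal (GJ.Gr r z)) := by
        refine setLIntegral_mono' measurableSet_ball fun z hz => ?_
        have hG := GJ.Gr_nonneg hz
        rw [← ENNReal.ofReal_mul (by positivity)]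
        refine le_trans (ENNReal.ofReal_le_ofReal ?_) (ENNReal.ofReal_add_le)
        have := mul_le_mul_of_nonneg_left (key z hz) hG
        linarith
    _ = (∫⁻ z in ball (0 : ℂ) r, ENNReal.ofReal (GJ.Gr r z *
          (‖ph' ζ ρ ε z‖ ^ 2 * s (ph ζ ρ ε z)))) +
        ENNReal.ofReal ((Λ * a + 6 * a ^ 2 * S) * ε) *
          ∫⁻ z in ball (0 : ℂ) r, ENNReal.ofReal (GJ.Gr r z) := by
        rw [lintegral_add_right _ ((hGmeas.ennreal_ofReal).const_mul _),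
          lintegral_const_mul' _ _ ENNReal.ofReal_ne_top]
    _ ≤ _ := by
        have h4 : ∫⁻ z in ball (0 : ℂ) r, ENNReal.ofReal (GJ.Gr r z) ≤ 1 := by
          rw [← ofReal_integral_eq_lintegral_ofReal (GJ.integrableOn_Gr hr)
            ((ae_restrict_iff' measurableSet_ball).2 (Eventually.of_forall fun z hz =>
              GJ.Gr_nonneg hz)), GJ.integral_Gr hr]
          rw [← ENNReal.ofReal_one]
          refine ENNReal.ofReal_le_ofReal ?_
          nlinarith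
        have h5 : ENNReal.ofReal ((Λ * a + 6 * a ^ 2 * S) * ε) *
          ∫⁻ z in ball (0 : ℂ) r, ENNReal.ofReal (GJ.Gr r z) ≤
          ENNReal.ofReal ((Λ * a + 6 * a ^ 2 * S) * ε) * 1 := by gcongr
        rw [mul_one] at h5
        exact add_le_add_right h5 _

end

end Vale.Agent.P272.BD
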