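import Vale.Agent.P272.BD.Lip
import Vale.Agent.P272.BD.Bound
import Vale.Agent.P272.BD.Ext
import Vale.Agent.P272.S2D.Iface

/-!
# P272 / BD: continuity of the extremal discs up to the boundary (B56, B56M)
-/

open scoped Manifold ContDiff ComplexOrder Topology ENNReal
open Complex Set Filter Metric MeasureTheory

set_option linter.all false

noncomputable section

namespace Vale.Agent.P272.BD

open Vale.Agent.P272.K Vale.Agent.P272.BR Vale.Agent.P272.HY Vale.Agent.P272.S2D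

section
variable {n : ℕ} {X : Type*} [TopologicalSpace X] [ChartedSpace (Cm n) X]
  {w g : Chart n X → Cm n → Matrix (Fin n) (Fin n) ℂ} {f : ℂ → X} {ζ : ℂ} {ρ ε : ℝ}

/-- the competitor is a holomorphic disc -/
lemma comp_holD (hf : HolD n f) (hζ : ‖ζ‖ = 1) (hρ : 0 < ρ) (hε : 0 ≤ ε) (hερ : ε ≤ ρ) :
    HolD n (fun z => f (ph ζ ρ ε z)) :=
  HolOn.comp (φ := ph ζ ρ ε) hf fun z hz =>
    ⟨(ph_hasDerivAt (den_ne hζ hρ hz)).differentiableAt, ph_mapsTo hζ hρ hε hερ hz⟩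

lemma comp_spd (hf : HolD n f) (hζ : ‖ζ‖ = 1) (hρ : 0 < ρ) (hε : 0 ≤ ε) (hερ : ε ≤ ρ) {z : ℂ}
    (hz : z ∈ ball (0 : ℂ) 1) :
    BR.spd w (fun z => f (ph ζ ρ ε z)) z = ‖ph' ζ ρ ε z‖ ^ 2 * BR.spd w f (ph ζ ρ ε z) := by
  have hd := ph_hasDerivAt (ε := ε) (den_ne hζ hρ hz)
  rw [spd_comp (φ := ph ζ ρ ε) (hf _ (ph_mapsTo hζ hρ hε hερ hz)) hd.differentiableAt, hd.deriv]

lemma comp_TE (hf : HolD n f) (hζ : ‖ζ‖ = 1) (hρ : 0 < ρ) (hε : 0 ≤ ε) (hερ : ε ≤ ρ) {r : ℝ}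
    (hr : r ≤ 1) :
    TE w r (fun z => f (ph ζ ρ ε z)) = ∫⁻ z in ball (0 : ℂ) r,
      ENNReal.ofReal (GJ.Gr r z * (‖ph' ζ ρ ε z‖ ^ 2 * BR.spd w f (ph ζ ρ ε z))) := by
  unfold TE
  refine setLIntegral_congr_fun measurableSet_ball fun z hz => ?_
  rw [comp_spd hf hζ hρ hε hερ (ball_subset_ball hr hz)]

variable [IsManifold 𝓘(ℂ, Cm n) ω X]

lemma TE_lt_top (hw : IsHermitian w) (hf : HolD n f) {r : ℝ} (hr : 0 < r) (hr1 : r < 1) :
    TE w r f ≠ ⊤ := by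
  have hsub : closedBall (0 : ℂ) r ⊆ ball 0 1 := closedBall_subset_ball hr1
  obtain ⟨S, hS⟩ := (isCompact_closedBall (0 : ℂ) r).exists_bound_of_continuousOn
    ((HolOn.continuousOn_spd isOpen_ball hw hf).mono hsub)
  have hS0 : 0 ≤ S := (norm_nonneg _).trans (hS 0 (by simp [hr.le]))
  have h1 : TE w r f ≤ ENNReal.ofReal S * 1 := by
    calc TE w r f ≤ ∫⁻ z in ball (0 : ℂ) r, ENNReal.ofReal S * ENNReal.ofReal (GJ.Gr r z) := by
          unfold TE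
          refine setLIntegral_mono' measurableSet_ball fun z hz => ?_
          rw [← ENNReal.ofReal_mul hS0]
          refine ENNReal.ofReal_le_ofReal ?_
          have hG := GJ.Gr_nonneg hz
          have := (le_abs_self _).trans (hS z (ball_subset_closedBall hz))
          nlinarith
      _ = ENNReal.ofReal S * ∫⁻ z in ball (0 : ℂ) r, ENNReal.ofReal (GJ.Gr r z) :=
          lintegral_const_mul' _ _ ENNReal.ofReal_ne_top
      _ ≤ _ := by
          gcongr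
          rw [← ofReal_integral_eq_lintegral_ofReal (GJ.integrableOn_Gr hr)
            ((ae_restrict_iff' measurableSet_ball).2 (Eventually.of_forall fun z hz =>
              GJ.Gr_nonneg hz)), GJ.integral_Gr hr, ← ENNReal.ofReal_one]
          refine ENNReal.ofReal_le_ofReal ?_
          nlinarith
  exact ne_top_of_le_ne_top (by simp) h1

/-- the variation of the energy of a maximiser -/
theorem max_var [T2Space X] [CompactSpace X] (hw : IsHermitian w) (hg : IsHermitian g)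
    {mu r lam : ℝ} (hmu : 0 ≤ mu) (hr : 0 < r) (hr1 : r < 1) (hlam : 0 < lam)
    (hf : IsMaxDiscM w g mu r lam f) :
    ∃ C : ℝ, 0 ≤ C ∧ ∀ (ζ : ℂ) (ρ : ℝ), ‖ζ‖ = 1 → 0 < ρ → ρ ≤ 1 → ∀ᶠ ε in 𝓝[>] (0 : ℝ),
      ∫⁻ z in ball (0 : ℂ) 1, ENNReal.ofReal (GJ.Gr 1 z * BR.spd g f z) ≤
      (∫⁻ z in ball (0 : ℂ) 1, ENNReal.ofReal (GJ.Gr 1 z *
        (‖ph' ζ ρ ε z‖ ^ 2 * BR.spd g f (ph ζ ρ ε z)))) + ENNReal.ofReal (C * ε) := by
  obtain ⟨C₁, hC₁, hC₁'⟩ := extra_var (s := BR.spd w f) hr hr1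
    (fun z hz => contDiffAt_spd isOpen_ball hw hf.holo hz) (fun z hz => spd_nonneg hw f z)
  set Q := BR.spd w f 0 with hQ
  have hQ0 : 0 ≤ Q := spd_nonneg hw f 0
  refine ⟨(2 * Q + mu * C₁) / lam, by positivity, fun ζ ρ hζ hρ hρ1 => ?_⟩
  have e1 : ∀ᶠ ε in 𝓝[>] (0 : ℝ), ε ≤ ρ :=
    (eventually_le_nhds hρ).filter_mono nhdsWithin_le_nhds
  have e2 : ∀ᶠ ε in 𝓝[>] (0 : ℝ), ε * (1 + ρ) < ρ ^ 2 := by
    have : Tendsto (fun ε : ℝ => ε * (1 + ρ)) (𝓝 0) (𝓝 (0 * (1 + ρ))) :=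
      (continuous_id.mul continuous_const).tendsto 0
    rw [zero_mul] at this
    exact (this.eventually_lt_const (by positivity)).filter_mono nhdsWithin_le_nhds
  filter_upwards [hC₁' ζ ρ hζ hρ hρ1, e1, e2, self_mem_nhdsWithin] with ε h1 h2 h3 h4
  have h4' : 0 < ε := h4
  have hTE := comp_TE (w := g) hf.holo hζ hρ h4'.le h2 (r := 1) le_rfl
  have hTEr := comp_TE (w := w) hf.holo hζ hρ h4'.le h2 (r := r) hr1.le
  have hvar := energy_var hζ hρ h4' h2 h3 (s := BR.spd g f)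
    (HolOn.continuousOn_spd isOpen_ball hg hf.holo) (fun z hz => spd_nonneg hg f z)
  have hholo := comp_holD hf.holo hζ hρ h4'.le h2
  have hfin : TE g 1 (fun z => f (ph ζ ρ ε z)) ≠ ⊤ := by
    rw [hTE]
    exact ne_top_of_le_ne_top hf.fin (le_self_add.trans hvar)
  have hmax := hf.max _ hholo (by simp) hfin
  unfold Phi at hmax
  have hs0 : BR.spd w (fun z => f (ph ζ ρ ε z)) 0 = (1 - ε / (1 + ρ)) ^ 2 * Q := by
    rw [comp_spd hf.holo hζ hρ h4'.le h2 (by simp), ph'_zero hρ, ph_zero, Complex.norm_real,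
      Real.norm_eq_abs, sq_abs]
  rw [hs0, ← hQ] at hmax
  have hTrf : TE w r f ≠ ⊤ := TE_lt_top hw hf.holo hr hr1
  have hTrfφ : TE w r (fun z => f (ph ζ ρ ε z)) ≠ ⊤ := TE_lt_top hw hholo hr hr1
  have h5 : (TE w r f).toReal ≤ (TE w r (fun z => f (ph ζ ρ ε z))).toReal + C₁ * ε := by
    rw [← hTEr] at h1
    have h6 := ENNReal.toReal_mono (ENNReal.add_ne_top.2 ⟨hTrfφ, ENNReal.ofReal_ne_top⟩) h1
    rw [ENNReal.toReal_add hTrfφ ENNReal.ofReal_ne_top,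
      ENNReal.toReal_ofReal (by positivity)] at h6
    exact h6
  have h7 : 1 - 2 * ε ≤ (1 - ε / (1 + ρ)) ^ 2 := by
    have h8 : ε / (1 + ρ) ≤ ε := div_le_self h4'.le (by linarith)
    nlinarith [sq_nonneg (ε / (1 + ρ))]
  have h8 : lam * (TE g 1 f).toReal ≤ lam * (TE g 1 (fun z => f (ph ζ ρ ε z))).toReal +
      (2 * Q + mu * C₁) * ε := by
    have h9 := mul_le_mul_of_nonneg_right h7 hQ0
    have h10 := mul_le_mul_of_nonneg_left h5 hmu
    linarith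
  have h9 : (TE g 1 f).toReal ≤ (TE g 1 (fun z => f (ph ζ ρ ε z))).toReal +
      (2 * Q + mu * C₁) / lam * ε := by
    rw [div_mul_eq_mul_div, ← sub_le_iff_le_add', le_div_iff₀ hlam]
    linarith
  show TE g 1 f ≤ _
  rw [← hTE]
  calc TE g 1 f = ENNReal.ofReal (TE g 1 f).toReal := (ENNReal.ofReal_toReal hf.fin).symm
    _ ≤ ENNReal.ofReal ((TE g 1 (fun z => f (ph ζ ρ ε z))).toReal +
      (2 * Q + mu * C₁) / lam * ε) := ENNReal.ofReal_le_ofReal h9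
    _ = ENNReal.ofReal (TE g 1 (fun z => f (ph ζ ρ ε z))).toReal +
      ENNReal.ofReal ((2 * Q + mu * C₁) / lam * ε) :=
        ENNReal.ofReal_add ENNReal.toReal_nonneg (by positivity)
    _ = _ := by rw [ENNReal.ofReal_toReal hfin]

/-- Brody's bound at every point, by rescaling -/
lemma brody_all (hw : IsHermitian w) {M : ℝ} (hM : ∀ f : ℂ → X, HolD n f → BR.spd w f 0 ≤ M)
    (hf : HolD n f) : ∀ z ∈ ball (0 : ℂ) 1, BR.spd w f z ≤ M / (1 - ‖z‖) ^ 2 := by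
  intro z hz
  have hd : 0 < 1 - ‖z‖ := by
    have : ‖z‖ < 1 := by simpa using hz
    linarith
  set φ : ℂ → ℂ := fun ζ => z + ((1 - ‖z‖ : ℝ) : ℂ) * ζ with hφ
  have hφd : ∀ ζ, HasDerivAt φ ((1 - ‖z‖ : ℝ) : ℂ) ζ := fun ζ => by
    simpa [hφ] using ((hasDerivAt_id ζ).const_mul (((1 - ‖z‖ : ℝ) : ℂ))).const_add z
  have hφm : ∀ ζ ∈ ball (0 : ℂ) 1, φ ζ ∈ ball (0 : ℂ) 1 := by
    intro ζ hζ
    rw [mem_ball_zero_iff] at hζ ⊢
    calc ‖φ ζ‖ ≤ ‖z‖ + (1 - ‖z‖) * ‖ζ‖ := by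
          refine (norm_add_le _ _).trans ?_
          rw [norm_mul, Complex.norm_real, Real.norm_of_nonneg hd.le]
      _ < ‖z‖ + (1 - ‖z‖) * 1 := by gcongr
      _ = 1 := by ring
  have h1 : HolD n (fun ζ => f (φ ζ)) := HolOn.comp (φ := φ) hf fun ζ hζ =>
    ⟨(hφd ζ).differentiableAt, hφm ζ hζ⟩
  have h2 := hM _ h1
  have h0 : φ 0 = z := by simp [hφ]
  rw [spd_comp (φ := φ) (by rw [h0]; exact hf z hz) (hφd 0).differentiableAt, (hφd 0).deriv, h0,
    Complex.norm_real, Real.norm_of_nonneg hd.le] at h2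
  rw [le_div_iff₀ (by positivity)]
  linarith

/-- **continuity of the maximiser up to the boundary**, from the variation inequality -/
theorem cont_of_var [T2Space X] [CompactSpace X] (hw : IsHermitian w) (hg : IsHermitian g)
    {M : ℝ} (hM : ∀ f : ℂ → X, HolD n f → BR.spd w f 0 ≤ M) (hf : HolD n f)
    (hfin : TE g 1 f ≠ ⊤)
    (H : ∃ C : ℝ, 0 ≤ C ∧ ∀ (ζ : ℂ) (ρ : ℝ), ‖ζ‖ = 1 → 0 < ρ → ρ ≤ 1 → ∀ᶠ ε in 𝓝[>] (0 : ℝ),
      ∫⁻ z in ball (0 : ℂ) 1, ENNReal.ofReal (GJ.Gr 1 z * BR.spd g f z) ≤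
      (∫⁻ z in ball (0 : ℂ) 1, ENNReal.ofReal (GJ.Gr 1 z *
        (‖ph' ζ ρ ε z‖ ^ 2 * BR.spd g f (ph ζ ρ ε z)))) + ENNReal.ofReal (C * ε)) :
    ∃ K : ℝ, 0 < K ∧ ∀ z ∈ ball (0 : ℂ) 1, BR.spd g f z ≤ K / (1 - ‖z‖) := by
  obtain ⟨C, hC, hCv⟩ := H
  obtain ⟨A, hA, hA'⟩ := exists_spd_le hw hg
  have hπ := Real.pi_pos
  have hgc : ContinuousOn (BR.spd g f) (ball 0 1) := HolOn.continuousOn_spd isOpen_ball hg hf
  have hM0 : 0 ≤ M := (spd_nonneg hw _ _).trans (hM f hf)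
  refine speed_bound hg hf (M := A * M + 1) (K := 9 * (Real.pi * C)) (by positivity) (by positivity)
    ?_ ?_
  · intro z hz
    have hd : 0 < 1 - ‖z‖ := by
      have : ‖z‖ < 1 := by simpa using hz
      linarith
    calc BR.spd g f z ≤ A * BR.spd w f z := hA' f z
      _ ≤ A * (M / (1 - ‖z‖) ^ 2) := by
          have := brody_all hw hM hf z hz
          gcongr
      _ = A * M / (1 - ‖z‖) ^ 2 := by ring
      _ ≤ _ := by gcongr; linarith
  · intro z₀ hz₀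
    have hz1 : ‖z₀‖ < 1 := by simpa using hz₀
    set d := 1 - ‖z₀‖ with hd
    have hd0 : 0 < d := by linarith
    have hd1 : d ≤ 1 := by have := norm_nonneg z₀; linarith
    obtain ⟨ζ, hζ, hζz⟩ : ∃ ζ : ℂ, ‖ζ‖ = 1 ∧ z₀ = ((1 - d : ℝ) : ℂ) * ζ := by
      have h1d : 1 - d = ‖z₀‖ := by rw [hd]; ring
      rw [h1d]
      by_cases h0 : z₀ = 0
      · exact ⟨1, norm_one, by rw [h0]; simp⟩
      · have hn : (‖z₀‖ : ℂ) ≠ 0 := by exact_mod_cast norm_ne_zero_iff.2 h0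
        refine ⟨z₀ / ‖z₀‖, ?_, ?_⟩
        · rw [norm_div, Complex.norm_real, norm_norm, div_self (norm_ne_zero_iff.2 h0)]
        · field_simp
    have hb := var_bound hζ hd0 hC hgc (fun z hz => spd_nonneg hg f z) hfin (hCv ζ d hζ hd0 hd1)
    have hsub : ball z₀ (d / 2) ⊆ ball 0 1 := by
      refine ball_subset_ball' ?_
      rw [dist_zero_right]
      linarith
    have hlow : ∀ z ∈ ball z₀ (d / 2), (9 * d)⁻¹ ≤ (hh ζ d z).re := by
      intro z hz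
      refine hh_re_lower hζ hd0 hd1 ?_
      rw [← hζz]
      rw [mem_ball, dist_eq_norm] at hz
      exact hz.le
    calc ∫⁻ z in ball z₀ (d / 2), ENNReal.ofReal (BR.spd g f z)
        ≤ ∫⁻ z in ball z₀ (d / 2), ENNReal.ofReal (9 * d) *
          ENNReal.ofReal ((hh ζ d z).re * BR.spd g f z) := by
          refine setLIntegral_mono' measurableSet_ball fun z hz => ?_
          rw [← ENNReal.ofReal_mul (by positivity)]
          refine ENNReal.ofReal_le_ofReal ?_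
          have h1 := hlow z hz
          have h2 : 0 ≤ BR.spd g f z := spd_nonneg hg f z
          have h3 : 1 ≤ 9 * d * (hh ζ d z).re := by
            rw [inv_le_iff_one_le_mul₀ (by positivity)] at h1
            linarith
          nlinarith
      _ = ENNReal.ofReal (9 * d) * ∫⁻ z in ball z₀ (d / 2),
          ENNReal.ofReal ((hh ζ d z).re * BR.spd g f z) :=
          lintegral_const_mul' _ _ ENNReal.ofReal_ne_top
      _ ≤ ENNReal.ofReal (9 * d) * ∫⁻ z in ball (0 : ℂ) 1,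
          ENNReal.ofReal ((hh ζ d z).re * BR.spd g f z) :=
          mul_le_mul_right (lintegral_mono_set hsub) _
      _ ≤ ENNReal.ofReal (9 * d) * ENNReal.ofReal (Real.pi * C) := by gcongr
      _ = _ := by
          rw [← ENNReal.ofReal_mul (by positivity)]
          congr 1
          ring

/-- the maximiser satisfies `|f'|² ≤ K / (1 - |z|)` -/
theorem max_speed [T2Space X] [CompactSpace X] (hw : IsHermitian w) (hg : IsHermitian g)
    {mu r lam M : ℝ} (hmu : 0 ≤ mu) (hr : 0 < r) (hr1 : r < 1) (hlam : 0 < lam)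
    (hM : ∀ f : ℂ → X, HolD n f → BR.spd w f 0 ≤ M) (hf : IsMaxDiscM w g mu r lam f) :
    ∃ K : ℝ, 0 < K ∧ ∀ z ∈ ball (0 : ℂ) 1, BR.spd g f z ≤ K / (1 - ‖z‖) :=
  cont_of_var hw hg hM hf.holo hf.fin (max_var hw hg hmu hr hr1 hlam hf)

end

section
variable {n : ℕ} {X : Type} [TopologicalSpace X] [ChartedSpace (Cm n) X]
  [IsManifold 𝓘(ℂ, Cm n) ω X] [T2Space X] [CompactSpace X]

/-- **B56M** -/
theorem b56M : S2D.B56M n X := by
  intro w g hw hg mu r lam M hmu hr hr1 hlam hM f hf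
  obtain ⟨K, hK, hb⟩ := max_speed hw hg hmu hr hr1 hlam hM hf
  exact extend hg hf.holo hK hb

/-- **B56** -/
theorem b56 : HY.B56 n X := by
  intro w w' hw hw' lam M hlam hM f hf
  refine b56M w w' hw hw' 0 (1 / 2) lam M le_rfl (by norm_num) (by norm_num) hlam hM f
    ⟨hf.holo, hf.fin, fun h h1 h2 h3 => ?_⟩
  have := hf.max h h1 h2 h3
  unfold Phi
  linarith

end

end Vale.Agent.P272.BD
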