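import Vale.Agent.P272.GJ.Green
import Mathlib.Analysis.Complex.MeanValue
import Mathlib.MeasureTheory.Group.LIntegral
import Mathlib.MeasureTheory.Measure.Lebesgue.Complex

/-! Area mean value property of holomorphic functions. -/

open Complex Set Filter Metric Topology MeasureTheory
open scoped ENNReal Real

set_option linter.all false

noncomputable section

namespace Vale.Agent.P272.BD

open GJ (pt)

lemma area_mean {g : ℂ → ℂ} {r : ℝ} (hr : 0 < r) (hc : ContinuousOn g (closedBall 0 r))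
    (hd : ∀ z ∈ ball (0 : ℂ) r, DifferentiableAt ℂ g z) :
    ∫ z in ball (0 : ℂ) r, g z = (π * r ^ 2) • g 0 := by
  have hpi : -π ≤ π := by linarith [Real.pi_pos]
  rw [GJ.setIntegral_ball_polar]
  have hcont : ContinuousOn (fun p : ℝ × ℝ => p.1 • g (pt p.1 p.2)) (Icc 0 r ×ˢ Icc (-π) π) :=
    continuous_fst.continuousOn.smul (GJ.contOn_pt_prod hc)
  have hint : IntegrableOn (fun p : ℝ × ℝ => p.1 • g (pt p.1 p.2)) (Ioo 0 r ×ˢ Ioo (-π) π)
      (volume.prod volume) :=
    (hcont.integrableOn_compact (isCompact_Icc.prod isCompact_Icc)).mono_set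
      (prod_mono Ioo_subset_Icc_self Ioo_subset_Icc_self)
  have h1 : ∀ ρ ∈ Ioo (0 : ℝ) r, ∫ θ in Ioo (-π) π, ρ • g (pt ρ θ) = (2 * π * ρ) • g 0 := by
    intro ρ hρ
    have h2 : Real.circleAverage g 0 ρ = g 0 := by
      have hab : |ρ| = ρ := abs_of_pos hρ.1
      refine circleAverage_of_differentiable_on_off_countable countable_empty ?_ ?_
      · rw [hab]; exact hc.mono (closedBall_subset_closedBall hρ.2.le)
      · intro z hz
        rw [hab] at hz
        exact hd z (ball_subset_ball hρ.2.le hz.1)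
    rw [GJ.circleAverage_eq_pi, intervalIntegral.integral_of_le hpi,
      integral_Ioc_eq_integral_Ioo] at h2
    rw [integral_smul]
    have h3 : ∫ θ in Ioo (-π) π, g (pt ρ θ) = (2 * π) • g 0 := by
      rw [← h2, smul_smul, mul_inv_cancel₀ (by positivity), one_smul]
    rw [h3, smul_smul]
    ring_nf
  have h4 : ∫ p in Ioo 0 r ×ˢ Ioo (-π) π, p.1 • g (pt p.1 p.2) =
      ∫ ρ in Ioo 0 r, ∫ θ in Ioo (-π) π, ρ • g (pt ρ θ) := setIntegral_prod _ hint
  rw [h4, setIntegral_congr_fun measurableSet_Ioo h1, integral_smul_const]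
  congr 1
  rw [← integral_Ioc_eq_integral_Ioo, ← intervalIntegral.integral_of_le hr.le,
    intervalIntegral.integral_const_mul, integral_id]
  ring

lemma lintegral_ball_translate (F : ℂ → ℝ≥0∞) (z₀ : ℂ) (r : ℝ) :
    ∫⁻ z in ball (0 : ℂ) r, F (z₀ + z) = ∫⁻ z in ball z₀ r, F z := by
  rw [← lintegral_indicator measurableSet_ball, ← lintegral_indicator measurableSet_ball,
    ← lintegral_add_left_eq_self ((ball z₀ r).indicator F) z₀]
  refine lintegral_congr fun z => ?_
  by_cases hz : z ∈ ball (0 : ℂ) r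
  · rw [indicator_of_mem hz, indicator_of_mem]
    simpa [dist_eq_norm] using hz
  · rw [indicator_of_notMem hz, indicator_of_notMem]
    simpa [dist_eq_norm] using hz

/-- sub-mean value property of the norm of a holomorphic curve -/
lemma sub_mean {n : ℕ} {v : ℂ → Fin n → ℂ} {z₀ : ℂ} {r : ℝ} (hr : 0 < r)
    (hc : ContinuousOn v (closedBall z₀ r)) (hd : ∀ z ∈ ball z₀ r, DifferentiableAt ℂ v z) :
    ENNReal.ofReal (π * r ^ 2 * ‖v z₀‖ ^ 2) ≤ ∫⁻ z in ball z₀ r, ENNReal.ofReal (‖v z‖ ^ 2) := by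
  rcases isEmpty_or_nonempty (Fin n) with hn | hn
  · have : ‖v z₀‖ = 0 := by
      rw [show v z₀ = 0 from Subsingleton.elim _ _, norm_zero]
    rw [this]; simp
  obtain ⟨i, hi⟩ : ∃ i, ‖v z₀‖ = ‖v z₀ i‖ := by
    obtain ⟨i, hi⟩ := Finite.exists_max fun i => ‖v z₀ i‖
    refine ⟨i, le_antisymm ?_ (norm_le_pi_norm _ i)⟩
    exact (pi_norm_le_iff_of_nonneg (norm_nonneg _)).2 hi
  set g : ℂ → ℂ := fun z => (v (z₀ + z) i) ^ 2 with hg
  have hsh : ∀ z ∈ closedBall (0 : ℂ) r, z₀ + z ∈ closedBall z₀ r := fun z hz => by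
    simpa [dist_eq_norm] using hz
  have hsh' : ∀ z ∈ ball (0 : ℂ) r, z₀ + z ∈ ball z₀ r := fun z hz => by
    simpa [dist_eq_norm] using hz
  have hgc : ContinuousOn g (closedBall 0 r) := by
    refine ContinuousOn.pow ?_ 2
    exact (continuousOn_pi.1 hc i).comp (continuous_const.add continuous_id).continuousOn hsh
  have hgd : ∀ z ∈ ball (0 : ℂ) r, DifferentiableAt ℂ g z := by
    intro z hz
    refine DifferentiableAt.pow ?_ 2
    have h1 : DifferentiableAt ℂ (fun w => v w i) (z₀ + z) :=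
      (differentiableAt_pi.1 (hd _ (hsh' z hz))) i
    exact DifferentiableAt.comp (g := fun w => v w i) z h1 (by fun_prop)
  have h1 := area_mean hr hgc hgd
  have h2 : ‖∫ z in ball (0 : ℂ) r, g z‖ₑ ≤ ∫⁻ z in ball (0 : ℂ) r, ‖g z‖ₑ :=
    enorm_integral_le_lintegral_enorm _
  rw [h1] at h2
  have h3 : ‖(π * r ^ 2) • g 0‖ₑ = ENNReal.ofReal (π * r ^ 2 * ‖v z₀‖ ^ 2) := by
    rw [← ofReal_norm_eq_enorm, norm_smul, Real.norm_of_nonneg (by positivity)]
    congr 2
    simp [hg, hi]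
  rw [h3] at h2
  refine h2.trans ?_
  rw [← lintegral_ball_translate (fun z => ENNReal.ofReal (‖v z‖ ^ 2)) z₀ r]
  refine lintegral_mono fun z => ?_
  rw [← ofReal_norm_eq_enorm]
  refine ENNReal.ofReal_le_ofReal ?_
  simp only [hg, norm_pow]
  have := norm_le_pi_norm (v (z₀ + z)) i
  gcongr

end Vale.Agent.P272.BD
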