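import Mathlib.Analysis.Complex.Basic
import Mathlib.Analysis.Calculus.Deriv.Inv
import Mathlib.Analysis.Calculus.Deriv.Add
import Mathlib.Analysis.Calculus.Deriv.Mul
import Mathlib.Analysis.SpecialFunctions.Log.Basic
import Mathlib.Analysis.Complex.RealDeriv

/-! The competitor `φ(z) = z (1 - ε / (1 + ρ - z ζ̄))` of the boundary regularity step. -/

open Complex Set Filter Metric Topology

set_option linter.all false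

noncomputable section

namespace Vale.Agent.P272.BD

/-- the denominator `1 + ρ - z ζ̄` -/
def den (ζ : ℂ) (ρ : ℝ) (z : ℂ) : ℂ := 1 + ρ - z * (starRingEnd ℂ) ζ

/-- `h(z) = 1 / (1 + ρ - z ζ̄)` -/
def hh (ζ : ℂ) (ρ : ℝ) (z : ℂ) : ℂ := (den ζ ρ z)⁻¹

/-- the competitor `φ(z) = z (1 - ε h(z))` -/
def ph (ζ : ℂ) (ρ ε : ℝ) (z : ℂ) : ℂ := z * (1 - ε * hh ζ ρ z)

section
variable {ζ : ℂ} {ρ ε : ℝ} {z w : ℂ}

lemma re_mul_le (hζ : ‖ζ‖ = 1) (z : ℂ) : (z * (starRingEnd ℂ) ζ).re ≤ ‖z‖ := by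
  refine (Complex.re_le_norm _).trans ?_
  rw [norm_mul, RCLike.norm_conj, hζ, mul_one]

lemma den_re (hζ : ‖ζ‖ = 1) (z : ℂ) : 1 + ρ - ‖z‖ ≤ (den ζ ρ z).re := by
  have h := re_mul_le hζ z
  have : (den ζ ρ z).re = 1 + ρ - (z * (starRingEnd ℂ) ζ).re := by
    simp [den]
  linarith

lemma den_re_pos (hζ : ‖ζ‖ = 1) (hρ : 0 < ρ) (hz : z ∈ ball (0 : ℂ) 1) : ρ < (den ζ ρ z).re := by
  have h := den_re (ρ := ρ) hζ z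
  have h1 : ‖z‖ < 1 := by simpa using hz
  linarith

lemma den_ne (hζ : ‖ζ‖ = 1) (hρ : 0 < ρ) (hz : z ∈ ball (0 : ℂ) 1) : den ζ ρ z ≠ 0 := by
  intro h
  have h1 := den_re_pos hζ hρ hz
  rw [h] at h1
  simp at h1
  linarith

lemma den_norm (hζ : ‖ζ‖ = 1) (hρ : 0 < ρ) (hz : z ∈ ball (0 : ℂ) 1) : ρ < ‖den ζ ρ z‖ :=
  (den_re_pos hζ hρ hz).trans_le (Complex.re_le_norm _)

lemma hh_re (ζ : ℂ) (ρ : ℝ) (z : ℂ) : (hh ζ ρ z).re = (den ζ ρ z).re * ‖hh ζ ρ z‖ ^ 2 := by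
  unfold hh
  rw [Complex.inv_re, norm_inv, Complex.normSq_eq_norm_sq, div_eq_mul_inv, inv_pow]

lemma hh_re_pos (hζ : ‖ζ‖ = 1) (hρ : 0 < ρ) (hz : z ∈ ball (0 : ℂ) 1) : 0 < (hh ζ ρ z).re := by
  rw [hh_re]
  have h1 := den_re_pos hζ hρ hz
  have h2 : 0 < ‖hh ζ ρ z‖ := norm_pos_iff.2 (inv_ne_zero (den_ne hζ hρ hz))
  have : 0 < (den ζ ρ z).re := hρ.trans h1
  positivity

lemma hh_sq (hζ : ‖ζ‖ = 1) (hρ : 0 < ρ) (hz : z ∈ ball (0 : ℂ) 1) :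
    ρ * ‖hh ζ ρ z‖ ^ 2 ≤ (hh ζ ρ z).re := by
  rw [hh_re]
  exact mul_le_mul_of_nonneg_right (den_re_pos hζ hρ hz).le (sq_nonneg _)

lemma hh_norm (hζ : ‖ζ‖ = 1) (hρ : 0 < ρ) (hz : z ∈ ball (0 : ℂ) 1) : ‖hh ζ ρ z‖ ≤ ρ⁻¹ := by
  unfold hh
  rw [norm_inv]
  exact inv_anti₀ hρ (den_norm hζ hρ hz).le

lemma norm_one_sub (ζ : ℂ) (ρ ε : ℝ) (z : ℂ) :
    ‖1 - ε * hh ζ ρ z‖ ^ 2 = 1 - 2 * ε * (hh ζ ρ z).re + ε ^ 2 * ‖hh ζ ρ z‖ ^ 2 := by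
  rw [← Complex.normSq_eq_norm_sq, ← Complex.normSq_eq_norm_sq, Complex.normSq_apply,
    Complex.normSq_apply]
  simp only [Complex.sub_re, Complex.one_re, Complex.mul_re, Complex.ofReal_re, Complex.ofReal_im,
    Complex.sub_im, Complex.one_im, Complex.mul_im]
  ring

/-- `|1 - ε h|² ≤ 1 - ε Re h` -/
lemma norm_one_sub_le (hζ : ‖ζ‖ = 1) (hρ : 0 < ρ) (hε : 0 ≤ ε) (hερ : ε ≤ ρ)
    (hz : z ∈ ball (0 : ℂ) 1) : ‖1 - ε * hh ζ ρ z‖ ^ 2 ≤ 1 - ε * (hh ζ ρ z).re := by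
  rw [norm_one_sub]
  have h1 := hh_sq hζ hρ hz
  have h2 : ε ^ 2 * ‖hh ζ ρ z‖ ^ 2 ≤ ε * (ρ * ‖hh ζ ρ z‖ ^ 2) := by
    have : 0 ≤ ε * ‖hh ζ ρ z‖ ^ 2 := by positivity
    nlinarith
  have h3 : ε * (ρ * ‖hh ζ ρ z‖ ^ 2) ≤ ε * (hh ζ ρ z).re := mul_le_mul_of_nonneg_left h1 hε
  linarith

lemma norm_one_sub_le_one (hζ : ‖ζ‖ = 1) (hρ : 0 < ρ) (hε : 0 ≤ ε) (hερ : ε ≤ ρ)
    (hz : z ∈ ball (0 : ℂ) 1) : ‖1 - ε * hh ζ ρ z‖ ≤ 1 := by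
  have h1 := norm_one_sub_le hζ hρ hε hερ hz
  have h2 := hh_re_pos hζ hρ hz
  have h3 : ‖1 - ε * hh ζ ρ z‖ ^ 2 ≤ 1 := by nlinarith
  nlinarith [norm_nonneg (1 - ε * hh ζ ρ z)]

lemma ph_norm_le (hζ : ‖ζ‖ = 1) (hρ : 0 < ρ) (hε : 0 ≤ ε) (hερ : ε ≤ ρ)
    (hz : z ∈ ball (0 : ℂ) 1) : ‖ph ζ ρ ε z‖ ≤ ‖z‖ := by
  unfold ph
  rw [norm_mul]
  exact mul_le_of_le_one_right (norm_nonneg _) (norm_one_sub_le_one hζ hρ hε hερ hz)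

lemma ph_mapsTo (hζ : ‖ζ‖ = 1) (hρ : 0 < ρ) (hε : 0 ≤ ε) (hερ : ε ≤ ρ) :
    MapsTo (ph ζ ρ ε) (ball 0 1) (ball 0 1) := by
  intro z hz
  have := ph_norm_le hζ hρ hε hερ hz
  simp only [mem_ball_zero_iff] at hz ⊢
  linarith

@[simp] lemma ph_zero (ζ : ℂ) (ρ ε : ℝ) : ph ζ ρ ε 0 = 0 := by simp [ph]

lemma ph_sub (hz : den ζ ρ z ≠ 0) (hw : den ζ ρ w ≠ 0) :
    ph ζ ρ ε z - ph ζ ρ ε w =
      (z - w) * (1 - ε * (1 + ρ) * (hh ζ ρ z * hh ζ ρ w)) := by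
  unfold ph hh
  field_simp
  unfold den
  ring

lemma ph_injOn (hζ : ‖ζ‖ = 1) (hρ : 0 < ρ) (hε : 0 ≤ ε) (h : ε * (1 + ρ) < ρ ^ 2) :
    InjOn (ph ζ ρ ε) (ball 0 1) := by
  intro z hz w hw hzw
  have h1 := ph_sub (ε := ε) (den_ne hζ hρ hz) (den_ne hζ hρ hw)
  rw [hzw, sub_self] at h1
  rcases mul_eq_zero.1 h1.symm with h2 | h2
  · exact sub_eq_zero.1 h2
  · exfalso
    have h3 : ‖(ε : ℂ) * (1 + ρ) * (hh ζ ρ z * hh ζ ρ w)‖ < 1 := by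
      rw [norm_mul, norm_mul, norm_mul]
      have e1 : ‖(ε : ℂ)‖ = ε := by rw [Complex.norm_real, Real.norm_of_nonneg hε]
      have e2 : ‖(1 + ρ : ℂ)‖ = 1 + ρ := by
        rw [← Complex.ofReal_one, ← Complex.ofReal_add, Complex.norm_real,
          Real.norm_of_nonneg (by positivity)]
      rw [e1, e2]
      have h4 : ‖hh ζ ρ z‖ * ‖hh ζ ρ w‖ ≤ ρ⁻¹ * ρ⁻¹ :=
        mul_le_mul (hh_norm hζ hρ hz) (hh_norm hζ hρ hw) (norm_nonneg _) (by positivity)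
      calc ε * (1 + ρ) * (‖hh ζ ρ z‖ * ‖hh ζ ρ w‖) ≤ ε * (1 + ρ) * (ρ⁻¹ * ρ⁻¹) :=
            mul_le_mul_of_nonneg_left h4 (by positivity)
        _ < ρ ^ 2 * (ρ⁻¹ * ρ⁻¹) := mul_lt_mul_of_pos_right h (by positivity)
        _ = 1 := by field_simp
    have h5 : (ε : ℂ) * (1 + ρ) * (hh ζ ρ z * hh ζ ρ w) = 1 := (sub_eq_zero.1 h2).symm
    rw [h5, norm_one] at h3
    exact lt_irrefl _ h3

/-- the derivative of the competitor -/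
def ph' (ζ : ℂ) (ρ ε : ℝ) (z : ℂ) : ℂ := 1 - ε * (1 + ρ) * (hh ζ ρ z) ^ 2

lemma ph_hasDerivAt (hz : den ζ ρ z ≠ 0) : HasDerivAt (ph ζ ρ ε) (ph' ζ ρ ε z) z := by
  have h1 : HasDerivAt (den ζ ρ) (-(starRingEnd ℂ) ζ) z := by
    have h0 : HasDerivAt (fun w : ℂ => w * (starRingEnd ℂ) ζ) (1 * (starRingEnd ℂ) ζ) z :=
      (hasDerivAt_id z).mul_const ((starRingEnd ℂ) ζ)
    have := HasDerivAt.const_sub (1 + (ρ : ℂ)) h0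
    rw [one_mul] at this
    exact this
  have h2 : HasDerivAt (hh ζ ρ) (-(-(starRingEnd ℂ) ζ) / (den ζ ρ z) ^ 2) z := h1.inv hz
  have h3 := (hasDerivAt_id z).mul (HasDerivAt.const_sub (1 : ℂ) (h2.const_mul (ε : ℂ)))
  refine (h3.congr_deriv ?_)
  simp only [id, ph', hh]
  field_simp
  unfold den
  ring

lemma ph_differentiableOn (hζ : ‖ζ‖ = 1) (hρ : 0 < ρ) :
    DifferentiableOn ℂ (ph ζ ρ ε) (ball 0 1) := fun z hz =>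
  (ph_hasDerivAt (den_ne hζ hρ hz)).differentiableAt.differentiableWithinAt

lemma hh_zero (ζ : ℂ) (ρ : ℝ) : hh ζ ρ 0 = ((1 + ρ)⁻¹ : ℝ) := by
  simp [hh, den]

lemma ph'_zero (hρ : 0 < ρ) : ph' ζ ρ ε 0 = ((1 - ε / (1 + ρ) : ℝ) : ℂ) := by
  unfold ph'
  rw [hh_zero]
  have : (1 + ρ : ℂ) ≠ 0 := by
    have h : (1 + ρ : ℝ) ≠ 0 := by positivity
    exact_mod_cast h
  push_cast
  field_simp

lemma ph'_ne (hζ : ‖ζ‖ = 1) (hρ : 0 < ρ) (hε : 0 ≤ ε) (h : ε * (1 + ρ) < ρ ^ 2)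
    (hz : z ∈ ball (0 : ℂ) 1) : ph' ζ ρ ε z ≠ 0 := by
  intro h0
  have h3 : ‖(ε : ℂ) * (1 + ρ) * (hh ζ ρ z) ^ 2‖ < 1 := by
    rw [norm_mul, norm_mul, norm_pow]
    have e1 : ‖(ε : ℂ)‖ = ε := by rw [Complex.norm_real, Real.norm_of_nonneg hε]
    have e2 : ‖(1 + ρ : ℂ)‖ = 1 + ρ := by
      rw [← Complex.ofReal_one, ← Complex.ofReal_add, Complex.norm_real,
        Real.norm_of_nonneg (by positivity)]
    rw [e1, e2]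
    have h4 : ‖hh ζ ρ z‖ ^ 2 ≤ (ρ⁻¹) ^ 2 := by
      have := hh_norm hζ hρ hz
      gcongr
    calc ε * (1 + ρ) * ‖hh ζ ρ z‖ ^ 2 ≤ ε * (1 + ρ) * (ρ⁻¹) ^ 2 :=
          mul_le_mul_of_nonneg_left h4 (by positivity)
      _ < ρ ^ 2 * (ρ⁻¹) ^ 2 := mul_lt_mul_of_pos_right h (by positivity)
      _ = 1 := by field_simp
  have h5 : (ε : ℂ) * (1 + ρ) * (hh ζ ρ z) ^ 2 = 1 := (sub_eq_zero.1 h0).symm
  rw [h5, norm_one] at h3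
  exact lt_irrefl _ h3

/-- `log (1/|φ z|) ≥ log (1/|z|) + (ε/2) Re h(z)` -/
lemma log_ph (hζ : ‖ζ‖ = 1) (hρ : 0 < ρ) (hε : 0 ≤ ε) (hερ : ε ≤ ρ) (h : ε * (1 + ρ) < ρ ^ 2)
    (hz : z ∈ ball (0 : ℂ) 1) (h0 : z ≠ 0) :
    Real.log (1 / ‖z‖) + ε / 2 * (hh ζ ρ z).re ≤ Real.log (1 / ‖ph ζ ρ ε z‖) := by
  have hne : 1 - (ε : ℂ) * hh ζ ρ z ≠ 0 := by
    intro h1
    have h2 : ph ζ ρ ε z = ph ζ ρ ε 0 := by simp [ph, h1]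
    exact h0 (ph_injOn hζ hρ hε h hz (by simp) h2)
  have hn : 0 < ‖1 - (ε : ℂ) * hh ζ ρ z‖ := norm_pos_iff.2 hne
  have hz0 : 0 < ‖z‖ := norm_pos_iff.2 h0
  have h1 := norm_one_sub_le hζ hρ hε hερ hz
  have h2 : Real.log (‖1 - (ε : ℂ) * hh ζ ρ z‖ ^ 2) ≤ - (ε * (hh ζ ρ z).re) := by
    have := Real.log_le_sub_one_of_pos (pow_pos hn 2)
    linarith
  rw [Real.log_pow] at h2
  unfold ph
  rw [norm_mul, one_div, one_div, mul_inv, Real.log_mul (inv_ne_zero hz0.ne') (inv_ne_zero hn.ne'),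
    Real.log_inv, Real.log_inv]
  push_cast at h2
  linarith

/-- lower bound of `Re h` close to the boundary point -/
lemma hh_re_lower (hζ : ‖ζ‖ = 1) {d : ℝ} (hd : 0 < d) (hd1 : d ≤ 1)
    (hw : ‖w - ((1 - d : ℝ) : ℂ) * ζ‖ ≤ d / 2) : (9 * d)⁻¹ ≤ (hh ζ d w).re := by
  have hζζ : ζ * (starRingEnd ℂ) ζ = 1 := by
    rw [Complex.mul_conj, Complex.normSq_eq_norm_sq, hζ]; simp
  have e1 : den ζ d w = ((2 * d : ℝ) : ℂ) - (w - ((1 - d : ℝ) : ℂ) * ζ) * (starRingEnd ℂ) ζ := by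
    unfold den
    have : (w - ((1 - d : ℝ) : ℂ) * ζ) * (starRingEnd ℂ) ζ =
      w * (starRingEnd ℂ) ζ - ((1 - d : ℝ) : ℂ) := by
      rw [sub_mul, mul_assoc, hζζ, mul_one]
    rw [this]
    push_cast; ring
  have h1 : ‖(w - ((1 - d : ℝ) : ℂ) * ζ) * (starRingEnd ℂ) ζ‖ ≤ d / 2 := by
    rw [norm_mul, RCLike.norm_conj, hζ, mul_one]; exact hw
  have h2 : d ≤ (den ζ d w).re := by
    rw [e1, Complex.sub_re, Complex.ofReal_re]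
    have := (Complex.re_le_norm ((w - ((1 - d : ℝ) : ℂ) * ζ) * (starRingEnd ℂ) ζ)).trans h1
    linarith
  have h3 : ‖den ζ d w‖ ≤ 3 * d := by
    rw [e1]
    refine (norm_sub_le _ _).trans ?_
    rw [Complex.norm_real, Real.norm_of_nonneg (by positivity)]
    linarith
  have h4 : 0 < ‖den ζ d w‖ := by
    have := Complex.re_le_norm (den ζ d w)
    linarith
  rw [hh_re]
  unfold hh
  rw [norm_inv, inv_pow]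
  have h5 : ‖den ζ d w‖ ^ 2 ≤ 9 * d ^ 2 := by nlinarith
  rw [← div_eq_mul_inv, inv_le_iff_one_le_mul₀ (by positivity), div_mul_eq_mul_div,
    le_div_iff₀ (by positivity)]
  nlinarith

end

end Vale.Agent.P272.BD
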