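import Vale.Agent.P272.BD.Phi
import Vale.Agent.P272.GJ.Green
import Mathlib.MeasureTheory.Function.Jacobian
import Mathlib.RingTheory.Norm.Transitivity
import Mathlib.RingTheory.Complex
import Mathlib.MeasureTheory.Measure.Lebesgue.Complex

/-! The variation of the energy with respect to the competitors `φ`. -/

open Complex Set Filter Metric Topology MeasureTheory
open scoped ENNReal Real

set_option linter.all false

noncomputable section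

namespace Vale.Agent.P272.BD

/-- the real determinant of the multiplication by a complex number -/
lemma det_mul (a : ℂ) :
    ((ContinuousLinearMap.toSpanSingleton ℂ a).restrictScalars ℝ : ℂ →L[ℝ] ℂ).det = ‖a‖ ^ 2 := by
  have h1 : ((ContinuousLinearMap.toSpanSingleton ℂ a).restrictScalars ℝ : ℂ →L[ℝ] ℂ).det =
      LinearMap.det ((ContinuousLinearMap.toSpanSingleton ℂ a : ℂ →ₗ[ℂ] ℂ).restrictScalars ℝ) := rfl
  rw [h1, LinearMap.det_restrictScalars, Algebra.norm_complex_eq]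
  simp [Complex.normSq_eq_norm_sq]

/-- change of variables for an injective holomorphic function -/
lemma lintegral_image {φ φ' : ℂ → ℂ} {U : Set ℂ} (hU : MeasurableSet U)
    (hφ : ∀ z ∈ U, HasDerivAt φ (φ' z) z) (hinj : InjOn φ U) (g : ℂ → ℝ≥0∞) :
    ∫⁻ z in φ '' U, g z = ∫⁻ z in U, ENNReal.ofReal (‖φ' z‖ ^ 2) * g (φ z) := by
  have h := lintegral_image_eq_lintegral_abs_det_fderiv_mul volume hU
    (f' := fun z => (ContinuousLinearMap.toSpanSingleton ℂ (φ' z)).restrictScalars ℝ)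
    (fun z hz => ((hφ z hz).hasFDerivAt.restrictScalars ℝ).hasFDerivWithinAt) hinj g
  rw [h]
  refine lintegral_congr fun z => ?_
  rw [det_mul, abs_of_nonneg (sq_nonneg _)]

section
variable {ζ : ℂ} {ρ ε C : ℝ} {s : ℂ → ℝ}

lemma Gr_ph (hζ : ‖ζ‖ = 1) (hρ : 0 < ρ) (hε : 0 ≤ ε) (hερ : ε ≤ ρ) (h : ε * (1 + ρ) < ρ ^ 2)
    {z : ℂ} (hz : z ∈ ball (0 : ℂ) 1) (h0 : z ≠ 0) :
    GJ.Gr 1 z + ε / π * (hh ζ ρ z).re ≤ GJ.Gr 1 (ph ζ ρ ε z) := by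
  unfold GJ.Gr
  have h1 := log_ph hζ hρ hε hερ h hz h0
  have h2 : 0 < 2 / π := by positivity
  have h3 := mul_le_mul_of_nonneg_left h1 h2.le
  have h4 : 2 / π * (Real.log (1 / ‖z‖) + ε / 2 * (hh ζ ρ z).re) =
    2 / π * Real.log (1 / ‖z‖) + ε / π * (hh ζ ρ z).re := by ring
  linarith

lemma contOn_int (hζ : ‖ζ‖ = 1) (hρ : 0 < ρ) (hmaps : MapsTo (ph ζ ρ ε) (ball 0 1) (ball 0 1))
    (hs : ContinuousOn s (ball 0 1)) :
    ContinuousOn (fun z => (hh ζ ρ z).re * (‖ph' ζ ρ ε z‖ ^ 2 * s (ph ζ ρ ε z))) (ball 0 1) := by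
  have c1 : ContinuousOn (hh ζ ρ) (ball 0 1) := by
    unfold hh
    refine ContinuousOn.inv₀ ?_ fun z hz => den_ne hζ hρ hz
    unfold den
    fun_prop
  have c2 : ContinuousOn (ph ζ ρ ε) (ball 0 1) := fun z hz =>
    (ph_hasDerivAt (den_ne hζ hρ hz)).continuousAt.continuousWithinAt
  have c3 : ContinuousOn (ph' ζ ρ ε) (ball 0 1) := by
    unfold ph'
    fun_prop
  refine (Complex.continuous_re.comp_continuousOn c1).mul ((c3.norm.pow 2).mul ?_)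
  exact hs.comp c2 hmaps

/-- the energy of the pulled back disc is smaller, quantitatively -/
lemma energy_var (hζ : ‖ζ‖ = 1) (hρ : 0 < ρ) (hε : 0 < ε) (hερ : ε ≤ ρ)
    (h : ε * (1 + ρ) < ρ ^ 2) (hs : ContinuousOn s (ball 0 1)) (hs0 : ∀ z ∈ ball (0 : ℂ) 1, 0 ≤ s z) :
    (∫⁻ z in ball (0 : ℂ) 1, ENNReal.ofReal (GJ.Gr 1 z * (‖ph' ζ ρ ε z‖ ^ 2 * s (ph ζ ρ ε z)))) +
      ENNReal.ofReal (ε / π) * ∫⁻ z in ball (0 : ℂ) 1,
        ENNReal.ofReal ((hh ζ ρ z).re * (‖ph' ζ ρ ε z‖ ^ 2 * s (ph ζ ρ ε z))) ≤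
    ∫⁻ z in ball (0 : ℂ) 1, ENNReal.ofReal (GJ.Gr 1 z * s z) := by
  have hD : ∀ z ∈ ball (0 : ℂ) 1, HasDerivAt (ph ζ ρ ε) (ph' ζ ρ ε z) z := fun z hz =>
    ph_hasDerivAt (den_ne hζ hρ hz)
  have hmaps := ph_mapsTo hζ hρ hε.le hερ
  have hsub : ph ζ ρ ε '' ball 0 1 ⊆ ball 0 1 := image_subset_iff.2 hmaps
  calc _ = ∫⁻ z in ball (0 : ℂ) 1, (ENNReal.ofReal (GJ.Gr 1 z * (‖ph' ζ ρ ε z‖ ^ 2 * s (ph ζ ρ ε z)))
        + ENNReal.ofReal (ε / π) *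
        ENNReal.ofReal ((hh ζ ρ z).re * (‖ph' ζ ρ ε z‖ ^ 2 * s (ph ζ ρ ε z)))) := by
        have hmeas : AEMeasurable (fun z => ENNReal.ofReal (ε / π) *
            ENNReal.ofReal ((hh ζ ρ z).re * (‖ph' ζ ρ ε z‖ ^ 2 * s (ph ζ ρ ε z))))
            (volume.restrict (ball (0 : ℂ) 1)) := by
          refine AEMeasurable.const_mul ?_ _
          refine AEMeasurable.ennreal_ofReal ?_
          exact (contOn_int hζ hρ hmaps hs).aemeasurable measurableSet_ball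
        rw [lintegral_add_right' _ hmeas, lintegral_const_mul' _ _ ENNReal.ofReal_ne_top]
    _ ≤ ∫⁻ z in ball (0 : ℂ) 1, ENNReal.ofReal (‖ph' ζ ρ ε z‖ ^ 2) *
        ENNReal.ofReal (GJ.Gr 1 (ph ζ ρ ε z) * s (ph ζ ρ ε z)) := by
        have hne : ∀ᵐ z ∂(volume.restrict (ball (0 : ℂ) 1)), z ≠ 0 :=
          ae_restrict_of_ae (Measure.ae_ne volume 0)
        refine lintegral_mono_ae ?_
        filter_upwards [hne, ae_restrict_mem measurableSet_ball] with z hz0 hz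
        have hsz : 0 ≤ s (ph ζ ρ ε z) := hs0 _ (hmaps hz)
        have h1 := Gr_ph hζ hρ hε.le hερ h hz hz0
        have h2 : 0 ≤ GJ.Gr 1 z := GJ.Gr_nonneg hz
        have h3 := (hh_re_pos hζ hρ hz).le
        have h4 : 0 ≤ ‖ph' ζ ρ ε z‖ ^ 2 * s (ph ζ ρ ε z) := by positivity
        rw [← ENNReal.ofReal_mul (by positivity), ← ENNReal.ofReal_add (by positivity) (by positivity),
          ← ENNReal.ofReal_mul (by positivity)]
        refine ENNReal.ofReal_le_ofReal ?_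
        calc _ = (GJ.Gr 1 z + ε / π * (hh ζ ρ z).re) * (‖ph' ζ ρ ε z‖ ^ 2 * s (ph ζ ρ ε z)) := by ring
          _ ≤ GJ.Gr 1 (ph ζ ρ ε z) * (‖ph' ζ ρ ε z‖ ^ 2 * s (ph ζ ρ ε z)) :=
            mul_le_mul_of_nonneg_right h1 h4
          _ = _ := by ring
    _ = ∫⁻ z in ph ζ ρ ε '' ball 0 1, ENNReal.ofReal (GJ.Gr 1 z * s z) :=
        (lintegral_image measurableSet_ball hD (ph_injOn hζ hρ hε.le h)
          (fun z => ENNReal.ofReal (GJ.Gr 1 z * s z))).symm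
    _ ≤ _ := lintegral_mono_set hsub

/-- the Fatou step -/
theorem var_bound (hζ : ‖ζ‖ = 1) (hρ : 0 < ρ) (hC : 0 ≤ C) (hs : ContinuousOn s (ball 0 1))
    (hs0 : ∀ z ∈ ball (0 : ℂ) 1, 0 ≤ s z)
    (hfin : ∫⁻ z in ball (0 : ℂ) 1, ENNReal.ofReal (GJ.Gr 1 z * s z) ≠ ⊤)
    (H : ∀ᶠ ε in 𝓝[>] (0 : ℝ), ∫⁻ z in ball (0 : ℂ) 1, ENNReal.ofReal (GJ.Gr 1 z * s z) ≤
      (∫⁻ z in ball (0 : ℂ) 1, ENNReal.ofReal (GJ.Gr 1 z * (‖ph' ζ ρ ε z‖ ^ 2 * s (ph ζ ρ ε z)))) +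
      ENNReal.ofReal (C * ε)) :
    ∫⁻ z in ball (0 : ℂ) 1, ENNReal.ofReal ((hh ζ ρ z).re * s z) ≤ ENNReal.ofReal (π * C) := by
  have h1 : ∀ᶠ ε in 𝓝[>] (0 : ℝ), ∫⁻ z in ball (0 : ℂ) 1,
      ENNReal.ofReal ((hh ζ ρ z).re * (‖ph' ζ ρ ε z‖ ^ 2 * s (ph ζ ρ ε z))) ≤
      ENNReal.ofReal (π * C) := by
    have e1 : ∀ᶠ ε in 𝓝[>] (0 : ℝ), ε ≤ ρ :=
      (eventually_le_nhds hρ).filter_mono nhdsWithin_le_nhds
    have e2 : ∀ᶠ ε in 𝓝[>] (0 : ℝ), ε * (1 + ρ) < ρ ^ 2 := by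
      have : Tendsto (fun ε : ℝ => ε * (1 + ρ)) (𝓝 0) (𝓝 (0 * (1 + ρ))) :=
        (continuous_id.mul continuous_const).tendsto 0
      rw [zero_mul] at this
      exact (this.eventually_lt_const (by positivity)).filter_mono nhdsWithin_le_nhds
    filter_upwards [H, e1, e2, self_mem_nhdsWithin] with ε hH h1 h2 h3
    have h3' : 0 < ε := h3
    have h4 := energy_var hζ hρ h3' h1 h2 hs hs0
    set Tε := ∫⁻ z in ball (0 : ℂ) 1,
      ENNReal.ofReal (GJ.Gr 1 z * (‖ph' ζ ρ ε z‖ ^ 2 * s (ph ζ ρ ε z))) with hTε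
    set J := ∫⁻ z in ball (0 : ℂ) 1,
      ENNReal.ofReal ((hh ζ ρ z).re * (‖ph' ζ ρ ε z‖ ^ 2 * s (ph ζ ρ ε z))) with hJ
    have hTfin : Tε ≠ ⊤ := ne_top_of_le_ne_top hfin (le_self_add.trans h4)
    have h5 : ENNReal.ofReal (ε / π) * J ≤ ENNReal.ofReal (C * ε) :=
      (ENNReal.add_le_add_iff_left hTfin).1 (h4.trans hH)
    have h6 : ENNReal.ofReal (C * ε) = ENNReal.ofReal (ε / π) * ENNReal.ofReal (π * C) := by
      rw [← ENNReal.ofReal_mul (by positivity)]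
      congr 1
      field_simp
    rw [h6] at h5
    exact (ENNReal.mul_le_mul_iff_right (by positivity : ENNReal.ofReal (ε / π) ≠ 0)
      ENNReal.ofReal_ne_top).1 h5
  -- a sequence
  have h1' : ∀ᶠ ε in 𝓝[>] (0 : ℝ), (∫⁻ z in ball (0 : ℂ) 1,
      ENNReal.ofReal ((hh ζ ρ z).re * (‖ph' ζ ρ ε z‖ ^ 2 * s (ph ζ ρ ε z))) ≤
      ENNReal.ofReal (π * C)) ∧ MapsTo (ph ζ ρ ε) (ball 0 1) (ball 0 1) := by
    have e1 : ∀ᶠ ε in 𝓝[>] (0 : ℝ), ε ≤ ρ :=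
      (eventually_le_nhds hρ).filter_mono nhdsWithin_le_nhds
    filter_upwards [h1, e1, self_mem_nhdsWithin] with ε h2 h3 h4
    exact ⟨h2, ph_mapsTo hζ hρ (le_of_lt h4) h3⟩
  obtain ⟨u', hu'⟩ := exists_seq_tendsto (𝓝[>] (0 : ℝ))
  obtain ⟨N, hN⟩ := eventually_atTop.1 (hu'.eventually h1')
  set u : ℕ → ℝ := fun k => u' (k + N) with hudef
  have hu : Tendsto u atTop (𝓝[>] (0 : ℝ)) := hu'.comp (tendsto_add_atTop_nat N)
  have h2 : ∀ k, (∫⁻ z in ball (0 : ℂ) 1,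
      ENNReal.ofReal ((hh ζ ρ z).re * (‖ph' ζ ρ (u k) z‖ ^ 2 * s (ph ζ ρ (u k) z))) ≤
      ENNReal.ofReal (π * C)) ∧ MapsTo (ph ζ ρ (u k)) (ball 0 1) (ball 0 1) := fun k =>
    hN (k + N) (Nat.le_add_left N k)
  have hlim : ∀ z ∈ ball (0 : ℂ) 1, Tendsto (fun k => ENNReal.ofReal ((hh ζ ρ z).re *
      (‖ph' ζ ρ (u k) z‖ ^ 2 * s (ph ζ ρ (u k) z)))) atTop
      (𝓝 (ENNReal.ofReal ((hh ζ ρ z).re * s z))) := by
    intro z hz
    have hu0 : Tendsto u atTop (𝓝 0) := hu.mono_right nhdsWithin_le_nhds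
    have hu1 : Tendsto (fun k => (u k : ℂ)) atTop (𝓝 ((0 : ℝ) : ℂ)) :=
      (Complex.continuous_ofReal.tendsto 0).comp hu0
    have h3 : Tendsto (fun k => ph ζ ρ (u k) z) atTop (𝓝 z) := by
      have : Tendsto (fun k => z * (1 - (u k : ℂ) * hh ζ ρ z)) atTop
        (𝓝 (z * (1 - ((0 : ℝ) : ℂ) * hh ζ ρ z))) :=
        tendsto_const_nhds.mul (tendsto_const_nhds.sub (hu1.mul tendsto_const_nhds))
      simpa [ph] using this
    have h4 : Tendsto (fun k => ph' ζ ρ (u k) z) atTop (𝓝 1) := by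
      have : Tendsto (fun k => 1 - (u k : ℂ) * (1 + ρ) * hh ζ ρ z ^ 2) atTop
        (𝓝 (1 - ((0 : ℝ) : ℂ) * (1 + ρ) * hh ζ ρ z ^ 2)) :=
        tendsto_const_nhds.sub ((hu1.mul tendsto_const_nhds).mul tendsto_const_nhds)
      simpa [ph'] using this
    have h5 : Tendsto (fun k => s (ph ζ ρ (u k) z)) atTop (𝓝 (s z)) :=
      ((hs.continuousAt (isOpen_ball.mem_nhds hz)).tendsto).comp h3
    have h6 : Tendsto (fun k => (hh ζ ρ z).re * (‖ph' ζ ρ (u k) z‖ ^ 2 * s (ph ζ ρ (u k) z)))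
        atTop (𝓝 ((hh ζ ρ z).re * (‖(1 : ℂ)‖ ^ 2 * s z))) :=
      tendsto_const_nhds.mul ((h4.norm.pow 2).mul h5)
    rw [norm_one, one_pow, one_mul] at h6
    exact (ENNReal.continuous_ofReal.tendsto _).comp h6
  calc ∫⁻ z in ball (0 : ℂ) 1, ENNReal.ofReal ((hh ζ ρ z).re * s z)
      = ∫⁻ z in ball (0 : ℂ) 1, liminf (fun k => ENNReal.ofReal ((hh ζ ρ z).re *
      (‖ph' ζ ρ (u k) z‖ ^ 2 * s (ph ζ ρ (u k) z)))) atTop :=
        setLIntegral_congr_fun measurableSet_ball fun z hz => (hlim z hz).liminf_eq.symm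
    _ ≤ liminf (fun k => ∫⁻ z in ball (0 : ℂ) 1, ENNReal.ofReal ((hh ζ ρ z).re *
      (‖ph' ζ ρ (u k) z‖ ^ 2 * s (ph ζ ρ (u k) z)))) atTop := by
        refine lintegral_liminf_le' fun k => ?_
        exact (contOn_int hζ hρ (h2 k).2 hs).aemeasurable measurableSet_ball |>.ennreal_ofReal
    _ ≤ liminf (fun _ : ℕ => ENNReal.ofReal (π * C)) atTop :=
        liminf_le_liminf (Eventually.of_forall fun k => (h2 k).1)
    _ = _ := liminf_const _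

end

end Vale.Agent.P272.BD
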