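import Vale.Agent.P272.BD.Main
import Vale.Agent.P272.XT.Defs
import Mathlib.MeasureTheory.Measure.Lebesgue.VolumeOfBalls

/-!
# P272 / BD: boundary regularity for the functional with the weight `(1 - |z|²)/π`
-/

open scoped Manifold ContDiff ComplexOrder Topology ENNReal
open Complex Set Filter Metric MeasureTheory

set_option linter.all false

noncomputable section

namespace Vale.Agent.P272.BD

open Vale.Agent.P272.K Vale.Agent.P272.BR Vale.Agent.P272.HY Vale.Agent.P272.S2D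

section
variable {ζ : ℂ} {ρ ε C : ℝ} {s : ℂ → ℝ}

/-- the weight `(1 - |z|²)/π` -/
def wq (z : ℂ) : ℝ := (1 - ‖z‖ ^ 2) / Real.pi

lemma wq_nonneg {z : ℂ} (hz : z ∈ ball (0 : ℂ) 1) : 0 ≤ wq z := by
  have h1 : ‖z‖ < 1 := by simpa using hz
  have h2 := norm_nonneg z
  unfold wq
  have : 0 ≤ 1 - ‖z‖ ^ 2 := by nlinarith
  positivity

lemma wq_ph (hζ : ‖ζ‖ = 1) (hρ : 0 < ρ) (hε : 0 ≤ ε) (hερ : ε ≤ ρ) {z : ℂ}
    (hz : z ∈ ball (0 : ℂ) 1) :
    wq z + ε * (‖z‖ ^ 2 / Real.pi * (hh ζ ρ z).re) ≤ wq (ph ζ ρ ε z) := by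
  have h1 := norm_one_sub_le hζ hρ hε hερ hz
  have h2 : ‖ph ζ ρ ε z‖ ^ 2 ≤ ‖z‖ ^ 2 * (1 - ε * (hh ζ ρ z).re) := by
    unfold ph
    rw [norm_mul, mul_pow]
    gcongr
  unfold wq
  have h3 : (1 - ‖z‖ ^ 2) / Real.pi + ε * (‖z‖ ^ 2 / Real.pi * (hh ζ ρ z).re) =
    (1 - ‖z‖ ^ 2 * (1 - ε * (hh ζ ρ z).re)) / Real.pi := by ring
  rw [h3]
  have hπ := Real.pi_pos
  gcongr

lemma energy_varX (hζ : ‖ζ‖ = 1) (hρ : 0 < ρ) (hε : 0 < ε) (hερ : ε ≤ ρ)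
    (h : ε * (1 + ρ) < ρ ^ 2) (hs : ContinuousOn s (ball 0 1)) (hs0 : ∀ z ∈ ball (0 : ℂ) 1, 0 ≤ s z) :
    (∫⁻ z in ball (0 : ℂ) 1, ENNReal.ofReal (wq z * (‖ph' ζ ρ ε z‖ ^ 2 * s (ph ζ ρ ε z)))) +
      ENNReal.ofReal ε * ∫⁻ z in ball (0 : ℂ) 1, ENNReal.ofReal (‖z‖ ^ 2 / Real.pi *
        ((hh ζ ρ z).re * (‖ph' ζ ρ ε z‖ ^ 2 * s (ph ζ ρ ε z)))) ≤
    ∫⁻ z in ball (0 : ℂ) 1, ENNReal.ofReal (wq z * s z) := by
  have hD : ∀ z ∈ ball (0 : ℂ) 1, HasDerivAt (ph ζ ρ ε) (ph' ζ ρ ε z) z := fun z hz =>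
    ph_hasDerivAt (den_ne hζ hρ hz)
  have hmaps := ph_mapsTo hζ hρ hε.le hερ
  have hsub : ph ζ ρ ε '' ball 0 1 ⊆ ball 0 1 := image_subset_iff.2 hmaps
  calc _ = ∫⁻ z in ball (0 : ℂ) 1, (ENNReal.ofReal (wq z * (‖ph' ζ ρ ε z‖ ^ 2 * s (ph ζ ρ ε z)))
        + ENNReal.ofReal ε * ENNReal.ofReal (‖z‖ ^ 2 / Real.pi *
        ((hh ζ ρ z).re * (‖ph' ζ ρ ε z‖ ^ 2 * s (ph ζ ρ ε z))))) := by
        have hmeas : AEMeasurable (fun z => ENNReal.ofReal ε *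
            ENNReal.ofReal (‖z‖ ^ 2 / Real.pi *
              ((hh ζ ρ z).re * (‖ph' ζ ρ ε z‖ ^ 2 * s (ph ζ ρ ε z)))))
            (volume.restrict (ball (0 : ℂ) 1)) := by
          refine AEMeasurable.const_mul ?_ _
          refine AEMeasurable.ennreal_ofReal ?_
          have hc : ContinuousOn (fun z : ℂ => ‖z‖ ^ 2 / Real.pi *
              ((hh ζ ρ z).re * (‖ph' ζ ρ ε z‖ ^ 2 * s (ph ζ ρ ε z)))) (ball 0 1) :=
            (Continuous.continuousOn (by fun_prop)).mul (contOn_int hζ hρ hmaps hs)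
          exact hc.aemeasurable measurableSet_ball
        rw [lintegral_add_right' _ hmeas, lintegral_const_mul' _ _ ENNReal.ofReal_ne_top]
    _ ≤ ∫⁻ z in ball (0 : ℂ) 1, ENNReal.ofReal (‖ph' ζ ρ ε z‖ ^ 2) *
        ENNReal.ofReal (wq (ph ζ ρ ε z) * s (ph ζ ρ ε z)) := by
        refine setLIntegral_mono' measurableSet_ball fun z hz => ?_
        have hsz : 0 ≤ s (ph ζ ρ ε z) := hs0 _ (hmaps hz)
        have h1 := wq_ph hζ hρ hε.le hερ hz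
        have h2 : 0 ≤ wq z := wq_nonneg hz
        have h3 := (hh_re_pos hζ hρ hz).le
        have h4 : 0 ≤ ‖ph' ζ ρ ε z‖ ^ 2 * s (ph ζ ρ ε z) := by positivity
        have hπ := Real.pi_pos
        rw [← ENNReal.ofReal_mul (by positivity), ← ENNReal.ofReal_add (by positivity) (by positivity),
          ← ENNReal.ofReal_mul (by positivity)]
        refine ENNReal.ofReal_le_ofReal ?_
        calc _ = (wq z + ε * (‖z‖ ^ 2 / Real.pi * (hh ζ ρ z).re)) *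
              (‖ph' ζ ρ ε z‖ ^ 2 * s (ph ζ ρ ε z)) := by ring
          _ ≤ wq (ph ζ ρ ε z) * (‖ph' ζ ρ ε z‖ ^ 2 * s (ph ζ ρ ε z)) :=
            mul_le_mul_of_nonneg_right h1 h4
          _ = _ := by ring
    _ = ∫⁻ z in ph ζ ρ ε '' ball 0 1, ENNReal.ofReal (wq z * s z) :=
        (lintegral_image measurableSet_ball hD (ph_injOn hζ hρ hε.le h)
          (fun z => ENNReal.ofReal (wq z * s z))).symm
    _ ≤ _ := lintegral_mono_set hsub

/-- the Fatou step -/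
theorem var_boundX (hζ : ‖ζ‖ = 1) (hρ : 0 < ρ) (hC : 0 ≤ C) (hs : ContinuousOn s (ball 0 1))
    (hs0 : ∀ z ∈ ball (0 : ℂ) 1, 0 ≤ s z)
    (hfin : ∫⁻ z in ball (0 : ℂ) 1, ENNReal.ofReal (wq z * s z) ≠ ⊤)
    (H : ∀ᶠ ε in 𝓝[>] (0 : ℝ), ∫⁻ z in ball (0 : ℂ) 1, ENNReal.ofReal (wq z * s z) ≤
      (∫⁻ z in ball (0 : ℂ) 1, ENNReal.ofReal (wq z * (‖ph' ζ ρ ε z‖ ^ 2 * s (ph ζ ρ ε z)))) +
      ENNReal.ofReal (C * ε)) :
    ∫⁻ z in ball (0 : ℂ) 1, ENNReal.ofReal (‖z‖ ^ 2 / Real.pi * ((hh ζ ρ z).re * s z)) ≤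
      ENNReal.ofReal C := by
  have h1 : ∀ᶠ ε in 𝓝[>] (0 : ℝ), (∫⁻ z in ball (0 : ℂ) 1,
      ENNReal.ofReal (‖z‖ ^ 2 / Real.pi *
        ((hh ζ ρ z).re * (‖ph' ζ ρ ε z‖ ^ 2 * s (ph ζ ρ ε z)))) ≤ ENNReal.ofReal C) ∧
      MapsTo (ph ζ ρ ε) (ball 0 1) (ball 0 1) := by
    have e1 : ∀ᶠ ε in 𝓝[>] (0 : ℝ), ε ≤ ρ :=
      (eventually_le_nhds hρ).filter_mono nhdsWithin_le_nhds
    have e2 : ∀ᶠ ε in 𝓝[>] (0 : ℝ), ε * (1 + ρ) < ρ ^ 2 := by
      have : Tendsto (fun ε : ℝ => ε * (1 + ρ)) (𝓝 0) (𝓝 (0 * (1 + ρ))) :=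
        (continuous_id.mul continuous_const).tendsto 0
      rw [zero_mul] at this
      exact (this.eventually_lt_const (by positivity)).filter_mono nhdsWithin_le_nhds
    filter_upwards [H, e1, e2, self_mem_nhdsWithin] with ε hH h1 h2 h3
    have h3' : 0 < ε := h3
    refine ⟨?_, ph_mapsTo hζ hρ h3'.le h1⟩
    have h4 := energy_varX hζ hρ h3' h1 h2 hs hs0
    set Tε := ∫⁻ z in ball (0 : ℂ) 1,
      ENNReal.ofReal (wq z * (‖ph' ζ ρ ε z‖ ^ 2 * s (ph ζ ρ ε z))) with hTε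
    set J := ∫⁻ z in ball (0 : ℂ) 1,
      ENNReal.ofReal (‖z‖ ^ 2 / Real.pi *
        ((hh ζ ρ z).re * (‖ph' ζ ρ ε z‖ ^ 2 * s (ph ζ ρ ε z)))) with hJ
    have hTfin : Tε ≠ ⊤ := ne_top_of_le_ne_top hfin (le_self_add.trans h4)
    have h5 : ENNReal.ofReal ε * J ≤ ENNReal.ofReal (C * ε) :=
      (ENNReal.add_le_add_iff_left hTfin).1 (h4.trans hH)
    have h6 : ENNReal.ofReal (C * ε) = ENNReal.ofReal ε * ENNReal.ofReal C := by
      rw [← ENNReal.ofReal_mul h3'.le, mul_comm]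
    rw [h6] at h5
    exact (ENNReal.mul_le_mul_iff_right (by positivity : ENNReal.ofReal ε ≠ 0)
      ENNReal.ofReal_ne_top).1 h5
  -- a sequence
  obtain ⟨u', hu'⟩ := exists_seq_tendsto (𝓝[>] (0 : ℝ))
  obtain ⟨N, hN⟩ := eventually_atTop.1 (hu'.eventually h1)
  set u : ℕ → ℝ := fun k => u' (k + N) with hudef
  have hu : Tendsto u atTop (𝓝[>] (0 : ℝ)) := hu'.comp (tendsto_add_atTop_nat N)
  have h2 := fun k => hN (k + N) (Nat.le_add_left N k)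
  have hlim : ∀ z ∈ ball (0 : ℂ) 1, Tendsto (fun k => ENNReal.ofReal (‖z‖ ^ 2 / Real.pi *
      ((hh ζ ρ z).re * (‖ph' ζ ρ (u k) z‖ ^ 2 * s (ph ζ ρ (u k) z))))) atTop
      (𝓝 (ENNReal.ofReal (‖z‖ ^ 2 / Real.pi * ((hh ζ ρ z).re * s z)))) := by
    intro z hz
    have hu0 : Tendsto u atTop (𝓝 0) := hu.mono_right nhdsWithin_le_nhds
    have hu1 : Tendsto (fun k => (u k : ℂ)) atTop (𝓝 ((0 : ℝ) : ℂ)) :=
      (Complex.continuous_ofReal.tendsto 0).comp hu0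
    have h3 : Tendsto (fun k => ph ζ ρ (u k) z) atTop (𝓝 z) := by
      have : Tendsto (fun k => z * (1 - (u k : ℂ) * hh ζ ρ z)) atTop
        (𝓝 (z * (1 - ((0 : ℝ) : ℂ) * hh ζ ρ z))) :=
        tendsto_const_nhds.mul (tendsto_const_nhds.sub (hu1.mul tendsto_const_nhds))
      simpa [ph] using this
    have h4 : Tendsto (fun k => ph' ζ ρ (u k) z) atTop (𝓝 1) := by
      have : Tendsto (fun k => 1 - (u k : ℂ) * (1 + ρ) * hh ζ ρ z ^ 2) atTop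
        (𝓝 (1 - ((0 : ℝ) : ℂ) * (1 + ρ) * hh ζ ρ z ^ 2)) :=
        tendsto_const_nhds.sub ((hu1.mul tendsto_const_nhds).mul tendsto_const_nhds)
      simpa [ph'] using this
    have h5 : Tendsto (fun k => s (ph ζ ρ (u k) z)) atTop (𝓝 (s z)) :=
      ((hs.continuousAt (isOpen_ball.mem_nhds hz)).tendsto).comp h3
    have h6 : Tendsto (fun k => ‖z‖ ^ 2 / Real.pi * ((hh ζ ρ z).re *
        (‖ph' ζ ρ (u k) z‖ ^ 2 * s (ph ζ ρ (u k) z)))) atTop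
        (𝓝 (‖z‖ ^ 2 / Real.pi * ((hh ζ ρ z).re * (‖(1 : ℂ)‖ ^ 2 * s z)))) :=
      tendsto_const_nhds.mul (tendsto_const_nhds.mul ((h4.norm.pow 2).mul h5))
    rw [norm_one, one_pow, one_mul] at h6
    exact (ENNReal.continuous_ofReal.tendsto _).comp h6
  calc ∫⁻ z in ball (0 : ℂ) 1, ENNReal.ofReal (‖z‖ ^ 2 / Real.pi * ((hh ζ ρ z).re * s z))
      = ∫⁻ z in ball (0 : ℂ) 1, liminf (fun k => ENNReal.ofReal (‖z‖ ^ 2 / Real.pi *
      ((hh ζ ρ z).re * (‖ph' ζ ρ (u k) z‖ ^ 2 * s (ph ζ ρ (u k) z))))) atTop :=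
        setLIntegral_congr_fun measurableSet_ball fun z hz => (hlim z hz).liminf_eq.symm
    _ ≤ liminf (fun k => ∫⁻ z in ball (0 : ℂ) 1, ENNReal.ofReal (‖z‖ ^ 2 / Real.pi *
      ((hh ζ ρ z).re * (‖ph' ζ ρ (u k) z‖ ^ 2 * s (ph ζ ρ (u k) z))))) atTop := by
        refine lintegral_liminf_le' fun k => ?_
        have hc : ContinuousOn (fun z : ℂ => ‖z‖ ^ 2 / Real.pi *
            ((hh ζ ρ z).re * (‖ph' ζ ρ (u k) z‖ ^ 2 * s (ph ζ ρ (u k) z)))) (ball 0 1) :=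
          (Continuous.continuousOn (by fun_prop)).mul (contOn_int hζ hρ (h2 k).2 hs)
        exact (hc.aemeasurable measurableSet_ball).ennreal_ofReal
    _ ≤ liminf (fun _ : ℕ => ENNReal.ofReal C) atTop :=
        liminf_le_liminf (Eventually.of_forall fun k => (h2 k).1)
    _ = _ := liminf_const _

end

section
variable {n : ℕ} {X : Type*} [TopologicalSpace X] [ChartedSpace (Cm n) X]
  [IsManifold 𝓘(ℂ, Cm n) ω X]
  {w g : Chart n X → Cm n → Matrix (Fin n) (Fin n) ℂ} {f : ℂ → X} {ζ : ℂ} {ρ ε : ℝ}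

/-- the pointwise bound from the abstract variation inequality, weight `(1 - |z|²)/π` -/
theorem cont_of_varX [T2Space X] [CompactSpace X] (hw : IsHermitian w) (hg : IsHermitian g)
    {M : ℝ} (hM : ∀ f : ℂ → X, HolD n f → BR.spd w f 0 ≤ M) (hf : HolD n f)
    (hfin : ∫⁻ z in ball (0 : ℂ) 1, ENNReal.ofReal (wq z * BR.spd g f z) ≠ ⊤)
    (H : ∃ C : ℝ, 0 ≤ C ∧ ∀ (ζ : ℂ) (ρ : ℝ), ‖ζ‖ = 1 → 0 < ρ → ρ ≤ 1 → ∀ᶠ ε in 𝓝[>] (0 : ℝ),
      ∫⁻ z in ball (0 : ℂ) 1, ENNReal.ofReal (wq z * BR.spd g f z) ≤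
      (∫⁻ z in ball (0 : ℂ) 1, ENNReal.ofReal (wq z *
        (‖ph' ζ ρ ε z‖ ^ 2 * BR.spd g f (ph ζ ρ ε z)))) + ENNReal.ofReal (C * ε)) :
    ∃ K : ℝ, 0 < K ∧ ∀ z ∈ ball (0 : ℂ) 1, BR.spd g f z ≤ K / (1 - ‖z‖) := by
  obtain ⟨C, hC, hCv⟩ := H
  obtain ⟨A, hA, hA'⟩ := exists_spd_le hw hg
  have hπ := Real.pi_pos
  have hgc : ContinuousOn (BR.spd g f) (ball 0 1) := HolOn.continuousOn_spd isOpen_ball hg hf
  have hM0 : 0 ≤ M := (spd_nonneg hw _ _).trans (hM f hf)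
  have hB : ∀ z ∈ ball (0 : ℂ) 1, BR.spd g f z ≤ (A * M + 1) / (1 - ‖z‖) ^ 2 := by
    intro z hz
    have hd : 0 < 1 - ‖z‖ := by
      have : ‖z‖ < 1 := by simpa using hz
      linarith
    calc BR.spd g f z ≤ A * BR.spd w f z := hA' f z
      _ ≤ A * (M / (1 - ‖z‖) ^ 2) := by
          have := brody_all hw hM hf z hz
          gcongr
      _ = A * M / (1 - ‖z‖) ^ 2 := by ring
      _ ≤ _ := by gcongr; linarith
  refine speed_bound hg hf (M := A * M + 1)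
    (K := 144 * (Real.pi * C) + 16 * (A * M + 1) * Real.pi) (by positivity) (by positivity) hB ?_
  intro z₀ hz₀
  have hz1 : ‖z₀‖ < 1 := by simpa using hz₀
  set d := 1 - ‖z₀‖ with hd
  have hd0 : 0 < d := by linarith
  have hd1 : d ≤ 1 := by have := norm_nonneg z₀; linarith
  rcases le_or_gt d (1 / 2) with hd2 | hd2
  · obtain ⟨ζ, hζ, hζz⟩ : ∃ ζ : ℂ, ‖ζ‖ = 1 ∧ z₀ = ((1 - d : ℝ) : ℂ) * ζ := by
      have h1d : 1 - d = ‖z₀‖ := by rw [hd]; ring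
      rw [h1d]
      have h0 : z₀ ≠ 0 := by
        intro h0
        rw [h0, norm_zero] at hd
        linarith
      have hn : (‖z₀‖ : ℂ) ≠ 0 := by exact_mod_cast norm_ne_zero_iff.2 h0
      refine ⟨z₀ / ‖z₀‖, ?_, ?_⟩
      · rw [norm_div, Complex.norm_real, norm_norm, div_self (norm_ne_zero_iff.2 h0)]
      · field_simp
    have hb := var_boundX hζ hd0 hC hgc (fun z hz => spd_nonneg hg f z) hfin (hCv ζ d hζ hd0 hd1)
    have hsub : ball z₀ (d / 2) ⊆ ball 0 1 := by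
      refine ball_subset_ball' ?_
      rw [dist_zero_right]
      linarith
    have hlow : ∀ z ∈ ball z₀ (d / 2), (9 * d)⁻¹ ≤ (hh ζ d z).re ∧ 1 / 16 ≤ ‖z‖ ^ 2 := by
      intro z hz
      rw [mem_ball, dist_eq_norm] at hz
      refine ⟨hh_re_lower hζ hd0 hd1 ?_, ?_⟩
      · rw [← hζz]
        exact hz.le
      · have h1 : ‖z₀‖ ≤ ‖z‖ + ‖z - z₀‖ := by
          have := norm_sub_le z (z - z₀)
          rwa [sub_sub_cancel] at this
        have h2 : 1 / 4 ≤ ‖z‖ := by linarith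
        nlinarith
    calc ∫⁻ z in ball z₀ (d / 2), ENNReal.ofReal (BR.spd g f z)
        ≤ ∫⁻ z in ball z₀ (d / 2), ENNReal.ofReal (144 * Real.pi * d) *
          ENNReal.ofReal (‖z‖ ^ 2 / Real.pi * ((hh ζ d z).re * BR.spd g f z)) := by
          refine setLIntegral_mono' measurableSet_ball fun z hz => ?_
          rw [← ENNReal.ofReal_mul (by positivity)]
          refine ENNReal.ofReal_le_ofReal ?_
          obtain ⟨h1, h4⟩ := hlow z hz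
          have h2 : 0 ≤ BR.spd g f z := spd_nonneg hg f z
          have h3 : 1 ≤ 9 * d * (hh ζ d z).re := by
            rw [inv_le_iff_one_le_mul₀ (by positivity)] at h1
            linarith
          have h5 : 1 ≤ 16 * ‖z‖ ^ 2 * (9 * d * (hh ζ d z).re) := by nlinarith
          calc BR.spd g f z ≤ (16 * ‖z‖ ^ 2 * (9 * d * (hh ζ d z).re)) * BR.spd g f z := by
                nlinarith
            _ = _ := by field_simp; ring
      _ = ENNReal.ofReal (144 * Real.pi * d) * ∫⁻ z in ball z₀ (d / 2),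
          ENNReal.ofReal (‖z‖ ^ 2 / Real.pi * ((hh ζ d z).re * BR.spd g f z)) :=
          lintegral_const_mul' _ _ ENNReal.ofReal_ne_top
      _ ≤ ENNReal.ofReal (144 * Real.pi * d) * ∫⁻ z in ball (0 : ℂ) 1,
          ENNReal.ofReal (‖z‖ ^ 2 / Real.pi * ((hh ζ d z).re * BR.spd g f z)) :=
          mul_le_mul_right (lintegral_mono_set hsub) _
      _ ≤ ENNReal.ofReal (144 * Real.pi * d) * ENNReal.ofReal C := by gcongr
      _ ≤ _ := by
          rw [← ENNReal.ofReal_mul (by positivity)]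
          refine ENNReal.ofReal_le_ofReal ?_
          have : 0 ≤ 16 * (A * M + 1) * Real.pi * d := by positivity
          nlinarith
  · have hball : ∀ w ∈ ball z₀ (d / 2), BR.spd g f w ≤ 16 * (A * M + 1) := by
      intro w hw'
      rw [mem_ball, dist_eq_norm] at hw'
      have h1 : ‖w‖ ≤ ‖z₀‖ + ‖w - z₀‖ := by
        have := norm_add_le z₀ (w - z₀)
        rwa [add_sub_cancel] at this
      have h2 : 1 / 4 ≤ 1 - ‖w‖ := by linarith
      have hw1 : w ∈ ball (0 : ℂ) 1 := by rw [mem_ball_zero_iff]; linarith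
      refine (hB w hw1).trans ?_
      have h3 : 0 < A * M + 1 := by positivity
      rw [div_le_iff₀ (by nlinarith)]
      have h4 : 1 / 16 ≤ (1 - ‖w‖) ^ 2 := by nlinarith
      nlinarith
    calc ∫⁻ z in ball z₀ (d / 2), ENNReal.ofReal (BR.spd g f z)
        ≤ ∫⁻ z in ball z₀ (d / 2), ENNReal.ofReal (16 * (A * M + 1)) :=
          setLIntegral_mono' measurableSet_ball fun z hz => ENNReal.ofReal_le_ofReal (hball z hz)
      _ = ENNReal.ofReal (16 * (A * M + 1)) * volume (ball z₀ (d / 2)) := by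
          rw [setLIntegral_const]
      _ = ENNReal.ofReal (16 * (A * M + 1)) * ENNReal.ofReal ((d / 2) ^ 2 * Real.pi) := by
          rw [Complex.volume_ball, ENNReal.ofReal_mul (p := (d / 2) ^ 2) (by positivity),
            ENNReal.ofReal_pow (by positivity)]
          congr 2
          exact (ENNReal.ofReal_coe_nnreal (p := NNReal.pi)).symm
      _ ≤ _ := by
          rw [← ENNReal.ofReal_mul (by positivity)]
          refine ENNReal.ofReal_le_ofReal ?_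
          have h1 : (d / 2) ^ 2 ≤ d := by nlinarith
          have h2 : 0 ≤ 16 * (A * M + 1) * Real.pi := by positivity
          have h3 : 0 ≤ 144 * (Real.pi * C) * d := by positivity
          nlinarith

/-- **boundary regularity of a maximiser** of `|f'(0)|²_w - lam ∫ (1-|z|²)/π |f'|²_g`: only the
comparison with the competitors `f ∘ φ` (same centre) is used. -/
theorem extendX [T2Space X] [CompactSpace X] (hw : IsHermitian w) (hg : IsHermitian g)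
    {M lam : ℝ} (hlam : 0 < lam) (hM : ∀ f : ℂ → X, HolD n f → BR.spd w f 0 ≤ M) (hf : HolD n f)
    (hfin : ∫⁻ z in ball (0 : ℂ) 1, ENNReal.ofReal (wq z * BR.spd g f z) ≠ ⊤)
    (hmax : ∀ h : ℂ → X, HolD n h → h 0 = f 0 →
      ∫⁻ z in ball (0 : ℂ) 1, ENNReal.ofReal (wq z * BR.spd g h z) ≠ ⊤ →
      BR.spd w h 0 - lam * (∫⁻ z in ball (0 : ℂ) 1, ENNReal.ofReal (wq z * BR.spd g h z)).toReal ≤
      BR.spd w f 0 - lam * (∫⁻ z in ball (0 : ℂ) 1, ENNReal.ofReal (wq z * BR.spd g f z)).toReal) :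
    (∃ K : ℝ, 0 < K ∧ ∀ z ∈ ball (0 : ℂ) 1, BR.spd g f z ≤ K / (1 - ‖z‖)) ∧
    ∃ h : ℂ → X, ContinuousOn h (closedBall 0 1) ∧ ∀ z ∈ ball (0 : ℂ) 1, h z = f z := by
  suffices hS : ∃ K : ℝ, 0 < K ∧ ∀ z ∈ ball (0 : ℂ) 1, BR.spd g f z ≤ K / (1 - ‖z‖) by
    obtain ⟨K, hK, hb⟩ := hS
    exact ⟨⟨K, hK, hb⟩, extend hg hf hK hb⟩
  refine cont_of_varX hw hg hM hf hfin ?_
  set Q := BR.spd w f 0 with hQ
  have hQ0 : 0 ≤ Q := spd_nonneg hw f 0
  refine ⟨2 * Q / lam, by positivity, fun ζ ρ hζ hρ hρ1 => ?_⟩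
  have e1 : ∀ᶠ ε in 𝓝[>] (0 : ℝ), ε ≤ ρ :=
    (eventually_le_nhds hρ).filter_mono nhdsWithin_le_nhds
  have e2 : ∀ᶠ ε in 𝓝[>] (0 : ℝ), ε * (1 + ρ) < ρ ^ 2 := by
    have : Tendsto (fun ε : ℝ => ε * (1 + ρ)) (𝓝 0) (𝓝 (0 * (1 + ρ))) :=
      (continuous_id.mul continuous_const).tendsto 0
    rw [zero_mul] at this
    exact (this.eventually_lt_const (by positivity)).filter_mono nhdsWithin_le_nhds
  filter_upwards [e1, e2, self_mem_nhdsWithin] with ε h2 h3 h4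
  have h4' : 0 < ε := h4
  have hTE : ∫⁻ z in ball (0 : ℂ) 1, ENNReal.ofReal (wq z * BR.spd g (fun z => f (ph ζ ρ ε z)) z) =
      ∫⁻ z in ball (0 : ℂ) 1,
      ENNReal.ofReal (wq z * (‖ph' ζ ρ ε z‖ ^ 2 * BR.spd g f (ph ζ ρ ε z))) :=
    setLIntegral_congr_fun measurableSet_ball fun z hz => by
      simp only [comp_spd (w := g) hf hζ hρ h4'.le h2 hz]
  have hvar := energy_varX hζ hρ h4' h2 h3 (s := BR.spd g f)
    (HolOn.continuousOn_spd isOpen_ball hg hf) (fun z hz => spd_nonneg hg f z)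
  have hholo := comp_holD hf hζ hρ h4'.le h2
  have hfin' : ∫⁻ z in ball (0 : ℂ) 1,
      ENNReal.ofReal (wq z * BR.spd g (fun z => f (ph ζ ρ ε z)) z) ≠ ⊤ := by
    rw [hTE]
    exact ne_top_of_le_ne_top hfin (le_self_add.trans hvar)
  have hm := hmax _ hholo (by simp) hfin'
  have hs0 : BR.spd w (fun z => f (ph ζ ρ ε z)) 0 = (1 - ε / (1 + ρ)) ^ 2 * Q := by
    rw [comp_spd hf hζ hρ h4'.le h2 (by simp), ph'_zero hρ, ph_zero, Complex.norm_real,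
      Real.norm_eq_abs, sq_abs]
  rw [hs0] at hm
  rw [← hTE]
  set T1 := ∫⁻ z in ball (0 : ℂ) 1, ENNReal.ofReal (wq z * BR.spd g f z) with hT1
  set T2 := ∫⁻ z in ball (0 : ℂ) 1,
      ENNReal.ofReal (wq z * BR.spd g (fun z => f (ph ζ ρ ε z)) z) with hT2
  have h7 : 1 - 2 * ε ≤ (1 - ε / (1 + ρ)) ^ 2 := by
    have h8 : ε / (1 + ρ) ≤ ε := div_le_self h4'.le (by linarith)
    nlinarith [sq_nonneg (ε / (1 + ρ))]
  have h8 : lam * T1.toReal ≤ lam * T2.toReal + 2 * Q * ε := by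
    have h9 := mul_le_mul_of_nonneg_right h7 hQ0
    linarith
  have h9 : T1.toReal ≤ T2.toReal + 2 * Q / lam * ε := by
    rw [div_mul_eq_mul_div, ← sub_le_iff_le_add', le_div_iff₀ hlam]
    linarith
  calc T1 = ENNReal.ofReal T1.toReal := (ENNReal.ofReal_toReal hfin).symm
    _ ≤ ENNReal.ofReal (T2.toReal + 2 * Q / lam * ε) := ENNReal.ofReal_le_ofReal h9
    _ = ENNReal.ofReal T2.toReal + ENNReal.ofReal (2 * Q / lam * ε) :=
        ENNReal.ofReal_add ENNReal.toReal_nonneg (by positivity)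
    _ = _ := by rw [ENNReal.ofReal_toReal hfin']

end

section
variable {n : ℕ} {X : Type} [TopologicalSpace X] [ChartedSpace (Cm n) X]
  [IsManifold 𝓘(ℂ, Cm n) ω X] [T2Space X] [CompactSpace X]
  {w w' : Chart n X → Cm n → Matrix (Fin n) (Fin n) ℂ} {lam M : ℝ} {f : ℂ → X}

lemma TW_eq (f : ℂ → X) :
    XT.TW w f = ∫⁻ z in ball (0 : ℂ) 1, ENNReal.ofReal (wq z * BR.spd w f z) := rfl

/-- a maximiser of `PhX` has `|f'|² ≤ K / (1 - |z|)` and is continuous up to the boundary -/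
theorem x56_full (hw : IsHermitian w) (hw' : IsHermitian w') (hlam : 0 < lam)
    (hM : ∀ f : ℂ → X, HolD n f → BR.spd w f 0 ≤ M) (hf : XT.IsMaxX w w' lam f) :
    (∃ K : ℝ, 0 < K ∧ ∀ z ∈ ball (0 : ℂ) 1, BR.spd w' f z ≤ K / (1 - ‖z‖)) ∧
    ∃ h : ℂ → X, ContinuousOn h (closedBall 0 1) ∧ ∀ z ∈ ball (0 : ℂ) 1, h z = f z :=
  extendX hw hw' hlam hM hf.holo hf.fin fun h h1 _ h3 => hf.max h h1 h3

/-- **X56** -/
theorem x56 : XT.X56 n X := fun _ _ hw hw' _ _ hlam hM _ hf => (x56_full hw hw' hlam hM hf).2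

end

end Vale.Agent.P272.BD
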